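import Vale.Agent.P092.H124.PglD

/-!
P092 (helper962), project MIX: coordinates `q j : Γ → SL_(N j + 1)(l j)` of a lattice `Γ` of any
group `E` with continuous homomorphisms `θ j : E → PGL_(N j + 1)(k j)` whose images contain the
images of `SL_(N j + 1)(k j)` (helper124's coordinates with passive factors).
-/

set_option linter.all false

open scoped LinearAlgebra.Projectivization
open Matrix Filter Topology Set

namespace Vale.Agent.P092.H962.MX

open Vale.Agent.P092.RC (GG PG YY ct)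
open Vale.Agent.P092.SN (PH nm)
open Vale.Agent.P092.H933 (LocK)
open Vale.Agent.P092.H35 (sp)
open Vale.Agent.P092.H514.NI (Covol)
open Vale.Agent.P092.H76.Pur (NIS)
open Vale.Agent.P092.H644.PGr (tauP tauP_cont)
open Vale.Agent.P092.H387.Ad (ph_of_hom)
open Vale.Agent.P092.H124.Pgl (lf sp_lf pgm pgm_one pgm_sp pgm_cont exists_compact_lf exists_small
  phi_cont nis_e2 tau_sp ct_map)

/-- the active coordinates of a lattice `Γ` of `E`; `θ j` = the projections of `E` -/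
structure CoordM {J E : Type} [Group E] {k : J → Type} [∀ j, NontriviallyNormedField (k j)]
    {N : J → ℕ} (θ : ∀ j, E →* PG (k j) (N j + 1)) (Γ : Subgroup E) (l : J → Type)
    [∀ j, NontriviallyNormedField (l j)] [∀ j, ProperSpace (l j)]
    (q : ∀ j, Γ → GG (l j) (N j)) : Prop where
  ph : ∀ j, PH (q j)
  ker : ∀ j γ, sp (l j) (N j + 1) (q j γ) = 1 → θ j γ = 1
  cpt : ∀ j (C : ℝ), ∃ Q : Set (PG (k j) (N j + 1)), IsCompact Q ∧
    ∀ γ : Γ, nm (q j γ) ≤ C → θ j γ ∈ Q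
  nis : ∀ i j, 1 ≤ j → j ≤ N i →
    NIS fun (γ : Γ) (x : H100.Gr.Gr (l i) (Fin (N i + 1)) j) => q i γ • x
  nis' : ∀ i j, 1 ≤ j → j ≤ N i →
    NIS fun (γ : Γ) (x : H100.Gr.Gr (l i) (Fin (N i + 1)) j) => ct (q i γ) • x

/-- **The active coordinates.** -/
theorem exists_coordM {J : Type} (k : J → Type) [∀ j, NontriviallyNormedField (k j)]
    [∀ j, ProperSpace (k j)] (N : J → ℕ) (hk : ∀ j, LocK (k j)) :
    ∃ (l : J → Type) (_ : ∀ j, NontriviallyNormedField (l j)) (_ : ∀ j, ProperSpace (l j)),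
      (∀ j, LocK (l j)) ∧ ∀ {E : Type} [Group E] [TopologicalSpace E] [IsTopologicalGroup E]
        (θ : ∀ j, E →* PG (k j) (N j + 1)), (∀ j, Continuous (θ j)) →
        (∀ j (g : GG (k j) (N j)), ∃ e, θ j e = sp (k j) (N j + 1) g) → ∀ Γ : Subgroup E,
        Covol Γ → ∃ q : ∀ j, Γ → GG (l j) (N j), CoordM θ Γ l q := by
  classical
  choose l i1 i2 hl φ hφ using fun j => H188.root_loc (hk j) (n := N j + 1) (Nat.succ_pos _)
  choose hs hr using hφ
  choose s hs0 hsn using hs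
  refine ⟨l, i1, i2, hl, ?_⟩
  intro E _ _ _ θ hθ hsur Γ hΓ
  have hsp : ∀ j (γ : Γ), sp (l j) (N j + 1) (lf (φ j) (hr j) (θ j γ)) =
      pgm (φ j) (N j + 1) (θ j γ) := fun j γ => sp_lf (φ j) (hr j) _
  refine ⟨fun j γ => lf (φ j) (hr j) (θ j γ), ?_⟩
  refine ⟨fun j => ?_, fun j γ h => ?_, fun j C => ?_, fun i j h1 h2 => ?_, fun i j h1 h2 => ?_⟩
  · exact ph_of_hom _ ((pgm (φ j) (N j + 1)).comp ((θ j).comp Γ.subtype)) fun γ => hsp j γ
  · rw [hsp] at h
    exact pgm_one h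
  · obtain ⟨Q, hQ, h⟩ := exists_compact_lf (N := N j) (hr j) (hs0 j) (hsn j) C
    exact ⟨Q, hQ, fun γ hγ => h _ hγ⟩
  · intro ψ hpos hone hinv
    refine nis_e2 (k := k i) (φ i) (fun ε hε => exists_small (hs0 i) (hsn i) ε hε)
      ((pgm (φ i) (N i + 1)).comp (θ i)) ((pgm_cont (phi_cont (hs0 i) (hsn i))).comp (hθ i))
      (fun g => ?_) Γ hΓ (fun γ => lf (φ i) (hr i) (θ i γ)) (fun γ => hsp i γ) h1 h2 ψ hpos
      hone hinv
    obtain ⟨e, he⟩ := hsur i g
    exact ⟨e, by rw [MonoidHom.comp_apply, he, pgm_sp]⟩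
  · intro ψ hpos hone hinv
    refine nis_e2 (k := k i) (φ i) (fun ε hε => exists_small (hs0 i) (hsn i) ε hε)
      ((tauP (l i) (N i + 1)).comp ((pgm (φ i) (N i + 1)).comp (θ i)))
      ((tauP_cont (k := l i) (n := N i + 1)).comp
        ((pgm_cont (phi_cont (hs0 i) (hsn i))).comp (hθ i)))
      (fun g => ?_) Γ hΓ (fun γ => ct (lf (φ i) (hr i) (θ i γ))) (fun γ => ?_) h1 h2 ψ hpos
      hone hinv
    · obtain ⟨e, he⟩ := hsur i (ct g)
      exact ⟨e, by rw [MonoidHom.comp_apply, MonoidHom.comp_apply, he, pgm_sp, tau_sp, ct_map]⟩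
    · rw [← tau_sp, hsp]
      rfl

end Vale.Agent.P092.H962.MX
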