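import Vale.Agent.P092.H962.MX.GapM
import Vale.Agent.P092.H962.MX.Coord
import Vale.Agent.P092.H515.Mx.Len
import Vale.Agent.P092.H35.Mx.Dis
import Vale.Agent.P092.H337.NGg

/-!
P092 (helper962), project MIX, the D-half of `MixStmt`: the passive size, joint finiteness, joint
injectivity and discreteness of the projection to the dense places modulo their radicals, for a
lattice of `EM k N G = ∏ PGL_(N j + 1)(k j) × ∏ G b`.
-/

set_option linter.all false

open scoped LinearAlgebra.Projectivization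
open Filter Topology Set

namespace Vale.Agent.P092.H962.MX

open Vale.Agent.P092.RC (GG PG ct)
open Vale.Agent.P092.SN (nm PH)
open Vale.Agent.P092.H35 (sp)
open Vale.Agent.P092.H933 (LocK)
open Vale.Agent.P092.H337.NG (Siz SizS)
open Vale.Agent.P092.MX (EM iM aM aM' pM Gauge)
open Vale.Agent.P092.SX (EG iG aG aG')
open Vale.Agent.P092.VR (Ov IsRad)
open Vale.Agent.P092.H35.Mx (MinC)

section len

variable {Γ : Type} [Group Γ] {s : Γ → ℝ}

theorem sizS_of_len (h : H515.Mx.Len s) : SizS s where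
  siz :=
    { gap := fun x y => ⟨s x + s y, fun g => h.gap x y g⟩
      quo := fun R => ⟨R + R, fun x y hx hy => by
        have h1 := h.mul y x⁻¹
        rw [h.inv] at h1
        linarith⟩ }
  inv := ⟨0, fun x => by rw [h.inv, sub_self, abs_zero]⟩

/-- **The passive size.** -/
theorem exists_gauge {B : Type} [Finite B] {T : B → Type} [∀ b, Group (T b)]
    [∀ b, TopologicalSpace (T b)] [∀ b, IsTopologicalGroup (T b)]
    [∀ b, LocallyCompactSpace (T b)] [∀ b, SigmaCompactSpace (T b)] (p : ∀ b, Γ →* T b) :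
    ∃ s : Γ → ℝ, H515.Mx.Len s ∧ Gauge p s := by
  obtain ⟨s, h1, h2, h3⟩ := H515.Mx.exists_len (∀ b, T b)
  refine ⟨fun γ => s (fun b => p b γ), h1.comap (MonoidHom.pi p), ⟨fun C hC => ?_, fun R => ?_⟩⟩
  · obtain ⟨R, hR⟩ := h3 C hC
    exact ⟨R, fun γ hγ => hR _ hγ⟩
  · obtain ⟨K, hK, h⟩ := h2 R
    exact ⟨K, hK, fun γ hγ => h _ hγ⟩

end len

section pt

variable {J B : Type} [DecidableEq J] {k : J → Type}
  [∀ j, NontriviallyNormedField (k j)] {N : J → ℕ} {G : B → Type} [∀ b, Group (G b)]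
  [∀ b, TopologicalSpace (G b)] (R : ∀ b, Subgroup (G b)) [∀ b, (R b).Normal]
  (Γ : Subgroup (EM k N G))

/-- the projections to the dense places modulo their radicals -/
def pT (b : B) : Γ →* G b ⧸ R b :=
  (QuotientGroup.mk' (R b)).comp ((pM k N G b).comp Γ.subtype)

theorem pT_apply (b : B) (γ : Γ) : pT R Γ b γ = (((γ : EM k N G).2 b : G b) : G b ⧸ R b) := rfl

variable {R Γ}

theorem proper_pi [∀ b, IsTopologicalGroup (G b)] (hR : ∀ b, Finite (R b))
    {C : Set (∀ b, G b ⧸ R b)} (hC : IsCompact C) :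
    ∃ D : Set (∀ b, G b), IsCompact D ∧
      ∀ g : ∀ b, G b, (fun b => (g b : G b ⧸ R b)) ∈ C → g ∈ D :=
  ⟨Set.pi Set.univ fun b => (QuotientGroup.mk : G b → G b ⧸ R b) ⁻¹'
      ((fun f : ∀ b, G b ⧸ R b => f b) '' C),
    isCompact_univ_pi fun b => (H35.Mx.proper_mk (hR b)).isCompact_preimage
      (hC.image (continuous_apply b)), fun g hg b _ => ⟨_, hg, rfl⟩⟩

/-- **Joint finiteness.** -/
theorem fin_M [∀ b, IsTopologicalGroup (G b)] [T2Space (EM k N G)] (hR : ∀ b, Finite (R b))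
    [DiscreteTopology Γ]
    {l : J → Type} [∀ j, NontriviallyNormedField (l j)] [∀ j, ProperSpace (l j)]
    {q : ∀ j, Γ → GG (l j) (N j)} (hq : CoordM (aM k N G) Γ l q) {s₀ : Γ → ℝ}
    (hG : Gauge (pT R Γ) s₀) (C : ℝ) :
    {γ : Γ | (∀ j, nm (q j γ) ≤ C) ∧ s₀ γ ≤ C}.Finite := by
  choose Q hQ h1 using fun j => hq.cpt j C
  obtain ⟨K, hK, h2⟩ := hG.cp C
  obtain ⟨D, hD, h3⟩ := proper_pi hR hK
  have h4 : IsCompact ((Set.univ.pi Q) ×ˢ D : Set (EM k N G)) := (isCompact_univ_pi hQ).prod hD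
  exact (H790.finite_inter Γ h4).subset fun γ hγ => ⟨fun j _ => h1 j γ (hγ.1 j), h3 _ (h2 γ hγ.2)⟩

/-- **Joint injectivity.** -/
theorem inj_M [Finite B] (hR : ∀ b, Finite (R b))
    (hicc : ∀ g : Γ, g ≠ 1 → Set.Infinite {y : Γ | ∃ h, y = h * g * h⁻¹})
    {l : J → Type} [∀ j, NontriviallyNormedField (l j)] [∀ j, ProperSpace (l j)]
    {q : ∀ j, Γ → GG (l j) (N j)} (hq : CoordM (aM k N G) Γ l q) (γ : Γ)
    (h1 : ∀ j, sp (l j) (N j + 1) (q j γ) = 1) (h2 : ∀ b, pT R Γ b γ = 1) : γ = 1 := by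
  classical
  by_contra hne
  refine hicc γ hne ?_
  have h3 : (Set.univ.pi fun b => (R b : Set (G b))).Finite := by
    refine Set.Finite.pi fun b => ?_
    haveI : Finite ((R b : Set (G b)) : Type) := hR b
    exact Set.toFinite (R b : Set (G b))
  have h4 : (({1} : Set (EG k N)) ×ˢ (Set.univ.pi fun b => (R b : Set (G b)))).Finite :=
    (Set.finite_singleton _).prod h3
  refine (h4.preimage (f := fun x : Γ => (x : EM k N G)) Subtype.val_injective.injOn).subset ?_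
  rintro y ⟨h, rfl⟩
  have h5 : (γ : EM k N G).1 = 1 := funext fun j => hq.ker j γ (h1 j)
  have h6 : ∀ b, (γ : EM k N G).2 b ∈ R b := fun b => (QuotientGroup.eq_one_iff _).1 (h2 b)
  refine ⟨?_, fun b _ => ?_⟩
  · change (h : EM k N G).1 * (γ : EM k N G).1 * ((h : EM k N G).1)⁻¹ = 1
    rw [h5, mul_one, mul_inv_cancel]
  · change (h : EM k N G).2 b * (γ : EM k N G).2 b * ((h : EM k N G).2 b)⁻¹ ∈ R b
    exact Subgroup.Normal.conj_mem inferInstance _ (h6 b) _

/-- **The projection to the dense places modulo their radicals is discrete.** -/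
theorem hd_M [Fintype J] [Fintype B] [∀ j, ProperSpace (k j)] {M : B → Type}
    [∀ b, Group (M b)] [∀ b, TopologicalSpace (M b)] {φ : ∀ b, M b →* G b} {r : B → ℕ}
    (hO : ∀ b, Ov (φ b) (r b)) (hR : ∀ b, IsRad (φ b) (R b)) (hl : H515.St.IsLattice Γ)
    (hD : ∀ j, DiscreteTopology (Set.range fun γ : Γ => (γ : EM k N G).1 j))
    (hm : ∀ b, MinC (G b)) (hd : ∀ b, DenseRange fun γ : Γ => (γ : EM k N G).2 b)
    (C : Set (∀ b, G b ⧸ R b)) (hC : IsCompact C) :
    (Set.range (fun (γ : Γ) b => pT R Γ b γ) ∩ C).Finite := by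
  obtain ⟨qD, hqD⟩ : ∃ qD : Γ →* EG k N, qD = (MonoidHom.fst (EG k N) (∀ b, G b)).comp Γ.subtype :=
    ⟨_, rfl⟩
  obtain ⟨qN, hqN⟩ : ∃ qN : Γ →* ∀ b, G b, qN = (MonoidHom.snd (EG k N) (∀ b, G b)).comp Γ.subtype :=
    ⟨_, rfl⟩
  have h1 : (qD.prod qN).range = Γ := by
    subst hqD hqN
    ext x
    constructor
    · rintro ⟨g, rfl⟩
      exact g.2
    · intro hx
      exact ⟨⟨x, hx⟩, rfl⟩
  have h2 : DiscreteTopology (Set.range qD) := by
    refine H35.Mx.disc_pi qD fun j => ?_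
    subst hqD
    exact hD j
  have h3 := H35.Mx.disc_T qD qN hO hR (by rw [h1]; exact ⟨hl.disc, hl.covol⟩) h2 hm
    (fun b => by subst hqN; exact hd b) C hC
  subst hqN
  exact h3

end pt

end Vale.Agent.P092.H962.MX
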