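import Vale.Agent.P092.H962.NT.LegT
import Vale.Agent.P092.H337.NGi

/-!
P092 (helper962), project MIX, all `t`: `OutM`, the output of the wall analysis with passive places.
-/

set_option linter.all false

open scoped InnerProductSpace ENNReal LinearAlgebra.Projectivization
open Filter Topology ContinuousLinearMap MeasureTheory TopologicalSpace

namespace Vale.Agent.P092.H962.MX

open Vale.Agent.P092.SR Vale.Agent.P092.H962.NT
open Vale.Agent.P092.H21 (mT msT)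
open Vale.Agent.P092.H85 (cdat)
open Vale.Agent.P092.H859.CL (st)
open Vale.Agent.P092.RC (GG ct)
open Vale.Agent.P092.SN (nm bw)
open Vale.Agent.P092.H337.NG (G2 RG)

section out

variable {E : Type} [Group E] [TopologicalSpace E] [IsTopologicalGroup E] [LocallyCompactSpace E]
  [SecondCountableTopology E] [T2Space E] [MeasurableSpace E] [BorelSpace E]
  {Γ : Subgroup E} [DiscreteTopology Γ] [Countable Γ] [MeasurableSpace (E ⧸ Γ)]
  [BorelSpace (E ⧸ Γ)] {ν : Measure (E ⧸ Γ)} [IsProbabilityMeasure ν]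
  (hν : ∀ g : E, ν.map (fun x => g • x) = ν)
  {κ ℋ : Type} [Fintype κ] [NormedAddCommGroup ℋ] [InnerProductSpace ℂ ℋ] [CompleteSpace ℋ]
  {V R₁ R₂ : Γ →* (ℋ →L[ℂ] ℋ)} {ξ : κ → ℋ} (hT : Tri V R₁ R₂ ξ)
  {J : Type} [Fintype J] [DecidableEq J]
  {k l : J → Type} [∀ j, NontriviallyNormedField (k j)] [∀ j, ProperSpace (k j)]
  [∀ j, NontriviallyNormedField (l j)] [∀ j, ProperSpace (l j)] {N : J → ℕ}

/-- The output of the wall analysis with passive places: the source factor `i` is matched with the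
target coordinate `τ i`; regularity, tightness of the other coordinates and of the passive size,
positions. -/
structure OutM (ι : ∀ j, GG (k j) (N j) →* E) (w : ∀ j, (k j)ˣ) (q : ∀ j, Γ → GG (l j) (N j))
    (s₀ : Γ → ℝ) (Br : ℝ → Set Γ) (τ : J → J) : Prop where
  rg : RG q Br
  mixs : ∀ (i : J) (r : ℝ), ∃ r' : ℝ, ∀ γ, r' < nm (q i γ) → r' < s₀ γ → γ ∈ Br r
  nrm : ∀ j, ∀ ε : ℝ, 0 < ε → ∃ r : ℝ, ∀ u ∈ Subgroup.zpowers (ι j (bw (w j))),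
    msT (cdat ν hν) hT u (Br r) ≤ ε
  bij : Function.Bijective τ
  dim : ∀ i, N (τ i) = N i
  tight : ∀ i (c : κ) (ε : ℝ), 0 < ε → ∃ r : ℝ, ∀ v ∈ Subgroup.zpowers (ι i (bw (w i))),
    ‖st (mT (cdat ν hν) hT) {γ | ∃ j', j' ≠ τ i ∧ r < nm (q j' γ)}
      (H34.Ind.pi (cdat ν hν) (V := V) hT.adjV v (OmN hν ξ c))‖ ≤ ε
  tights : ∀ i (c : κ) (ε : ℝ), 0 < ε → ∃ r : ℝ, ∀ v ∈ Subgroup.zpowers (ι i (bw (w i))),
    ‖st (mT (cdat ν hν) hT) {γ | r < s₀ γ}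
      (H34.Ind.pi (cdat ν hν) (V := V) hT.adjV v (OmN hν ξ c))‖ ≤ ε
  pos : ∀ i (c : κ) (ε : ℝ), 0 < ε → ∃ r : ℝ, ∀ᶠ t : ℕ in atTop,
    ‖st (mT (cdat ν hν) hT) {γ | r < G2 (q (τ i) γ) ∧ r < G2 (ct (q (τ i) γ))}
      (H34.Ind.pi (cdat ν hν) (V := V) hT.adjV (ι i (bw (w i)) ^ t) (OmN hν ξ c))‖ ≤ ε
  pos' : ∀ i (c : κ) (ε : ℝ), 0 < ε → ∃ r : ℝ, ∀ᶠ t : ℕ in atTop,
    ‖st (mT (cdat ν hν) hT) {γ | r < G2 (q (τ i) γ) ∧ r < G2 (ct (q (τ i) γ))}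
      (H34.Ind.pi (cdat ν hν) (V := V) hT.adjV ((ι i (bw (w i)))⁻¹ ^ t) (OmN hν ξ c))‖ ≤ ε

end out

end Vale.Agent.P092.H962.MX
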