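import Vale.Agent.P092.H962.NT.ExPT
import Vale.Agent.P092.H962.MX.OutM

/-!
P092 (helper962), project MIX, all `t`: the leg of one factor of the source and one active coordinate
of the target, next to a passive size `s₀` of the other places.
-/

set_option linter.all false

open scoped InnerProductSpace ENNReal LinearAlgebra.Projectivization
open Filter Topology ContinuousLinearMap MeasureTheory TopologicalSpace

namespace Vale.Agent.P092.H962.MX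

open Vale.Agent.P092.SR Vale.Agent.P092.H962.NT
open Vale.Agent.P092.H21 (mT BdT BfT msT WT Hon nc nc_ne fin_T)
open Vale.Agent.P092.H85 (cdat)
open Vale.Agent.P092.H859.CL (st pw BB)
open Vale.Agent.P092.H859.TgN (Tg g1 g2 ZZ)
open Vale.Agent.P092.RC (GG PG YY y0 ct PicF)
open Vale.Agent.P092.SN (CY PH UD Adm bw un nm)
open Vale.Agent.P092.SNP (ZP)
open Vale.Agent.P092.H100.Gr (Gr)
open Vale.Agent.P092.H76.Pur (NIS)
open Vale.Agent.P092.H368.SN (Cz)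
open Vale.Agent.P092.SD (MsF UC)
open Vale.Agent.P092.H35 (sp)
open Vale.Agent.P092.H337.NG (rho rho_of_nm nm_of_rho siz_rho sizS_rho fin_rho G1 G2 G1_ta G2_ta
  RG Siz SizS bb_mix bb_mix' nm_large)
open Vale.Agent.P092.H305.PX (Cmp exists_max cmp_ct legXF_change msF_mono)

/-! ### Sizes -/

section siz

variable {Γ : Type} [Group Γ]

theorem siz_max {ρ σ : Γ → ℝ} (h : Siz ρ) (h' : Siz σ) : Siz fun γ => max (ρ γ) (σ γ) where
  gap s u := by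
    obtain ⟨C, hC⟩ := h.gap s u
    obtain ⟨D, hD⟩ := h'.gap s u
    refine ⟨max C D, fun x => ?_⟩
    exact (abs_max_sub_max_le_max _ _ _ _).trans (max_le_max (hC x) (hD x))
  quo R := by
    obtain ⟨C, hC⟩ := h.quo R
    obtain ⟨D, hD⟩ := h'.quo R
    refine ⟨max C D, fun x y hx hy => max_le_max (hC x y ?_ ?_) (hD x y ?_ ?_)⟩
    · exact (le_max_left _ _).trans hx
    · exact (le_max_left _ _).trans hy
    · exact (le_max_right _ _).trans hx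
    · exact (le_max_right _ _).trans hy

theorem sizS_max {ρ σ : Γ → ℝ} (h : SizS ρ) (h' : SizS σ) : SizS fun γ => max (ρ γ) (σ γ) where
  siz := siz_max h.siz h'.siz
  inv := by
    obtain ⟨C, hC⟩ := h.inv
    obtain ⟨D, hD⟩ := h'.inv
    refine ⟨max C D, fun x => ?_⟩
    exact (abs_max_sub_max_le_max _ _ _ _).trans (max_le_max (hC x) (hD x))

end siz

section tgt

variable {Γ : Type} [Group Γ] {J : Type} [Fintype J] [DecidableEq J] {l : J → Type}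
  [∀ j, NontriviallyNormedField (l j)] {N : J → ℕ} {q : ∀ j, Γ → GG (l j) (N j)} {s₀ : Γ → ℝ}

/-- the size of the coordinates different from `j` and of the passive places -/
noncomputable def rhs (q : ∀ j, Γ → GG (l j) (N j)) (s₀ : Γ → ℝ) (j : J) (γ : Γ) : ℝ :=
  max (rho q j γ) (s₀ γ)

/-- the elements all of whose coordinates except `j` are bounded -/
def ZS (q : ∀ j, Γ → GG (l j) (N j)) (s₀ : Γ → ℝ) (j : J) (R : ℝ) : Set Γ :=
  {γ | (∀ i, i ≠ j → nm (q i γ) ≤ R) ∧ s₀ γ ≤ R}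

omit [Group Γ] [Fintype J] [DecidableEq J] in
theorem ZS_mono (j : J) : Monotone (ZS q s₀ j) :=
  fun _ _ h _ hγ => ⟨fun i hi => (hγ.1 i hi).trans h, hγ.2.trans h⟩

omit [Group Γ] in
theorem ZS_of_rhs (hN : ∀ j, 1 ≤ N j) (j : J) (R : ℝ) :
    ∃ R', ZZ (rhs q s₀ j) R ⊆ ZS q s₀ j R' := by
  obtain ⟨R', h⟩ := nm_of_rho (q := q) hN j R
  refine ⟨max R R', fun γ hγ => ⟨fun i hi => (h γ ?_ i hi).trans (le_max_right _ _), ?_⟩⟩
  · exact (le_max_left _ _).trans hγ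
  · exact ((le_max_right _ _).trans hγ).trans (le_max_left _ _)

omit [Group Γ] in
theorem rhs_of_ZS (hN : ∀ j, 1 ≤ N j) (j : J) (R : ℝ) :
    ∃ R', ZS q s₀ j R ⊆ ZZ (rhs q s₀ j) R' := by
  obtain ⟨R', h⟩ := rho_of_nm (q := q) hN j R
  exact ⟨max R R', fun γ hγ => max_le ((h γ hγ.1).trans (le_max_right _ _))
    (hγ.2.trans (le_max_left _ _))⟩

omit [Group Γ] in
theorem fin_rhs (hN : ∀ j, 1 ≤ N j)
    (fin : ∀ C : ℝ, {γ | (∀ j, nm (q j γ) ≤ C) ∧ s₀ γ ≤ C}.Finite) (j : J) (R : ℝ) :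
    {γ | nm (q j γ) ≤ R ∧ rhs q s₀ j γ ≤ R}.Finite := by
  obtain ⟨R', h⟩ := nm_of_rho (q := q) hN j R
  refine (fin (max R R')).subset fun γ hγ => ⟨fun i => ?_, ?_⟩
  · by_cases hi : i = j
    · subst hi
      exact hγ.1.trans (le_max_left _ _)
    · exact (h γ ((le_max_left _ _).trans hγ.2) i hi).trans (le_max_right _ _)
  · exact ((le_max_right _ _).trans hγ.2).trans (le_max_left _ _)

/-- the target data of the coordinate `j` -/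
theorem tg_rhs (hN : ∀ j, 1 ≤ N j) (hq : ∀ j, PH (q j)) (hs : SizS s₀)
    (fin : ∀ C : ℝ, {γ | (∀ j, nm (q j γ) ≤ C) ∧ s₀ γ ≤ C}.Finite) (j : J) :
    Tg (q j) (rhs q s₀ j) where
  ph := hq j
  siz := siz_max (siz_rho hN hq j) hs.siz
  inv := (sizS_max (sizS_rho hN hq j) hs).inv
  fin := fin_rhs hN fin j

omit [Group Γ] in
theorem bb_rhs (hN : ∀ i, 1 ≤ N i) (i : J) (R : ℝ) :
    ∃ r, BB (g1 (q i)) (g2 (q i) (rhs q s₀ i)) r ⊆ {γ | R < G1 (q i γ) ∧ R < G2 (q i γ)} ∪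
      ({γ | R < nm (q i γ) ∧ ∃ j, j ≠ i ∧ R < nm (q j γ)} ∪
        {γ | R < nm (q i γ) ∧ R < s₀ γ}) := by
  obtain ⟨r, hr⟩ := bb_mix (q := q) hN i R
  obtain ⟨r1, hr1⟩ := nm_large (k := l i) (hN i) R
  refine ⟨max (max R r1) r, fun γ hγ => ?_⟩
  obtain ⟨h1, h2⟩ := hγ
  by_cases h3 : R < s₀ γ
  · exact Or.inr (Or.inr ⟨hr1 _ (Or.inl (((le_max_right _ _).trans (le_max_left _ _)).trans_lt
      h1)), h3⟩)
  · have h4 : γ ∈ BB (g1 (q i)) (g2 (q i) (rho q i)) r := by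
      refine ⟨(le_max_right _ _).trans_lt h1, ?_⟩
      rcases lt_max_iff.1 h2 with h5 | h5
      · exact lt_max_of_lt_left ((le_max_right _ _).trans_lt h5)
      · rcases lt_max_iff.1 h5 with h6 | h6
        · exact lt_max_of_lt_right ((le_max_right _ _).trans_lt h6)
        · exact absurd ((((le_max_left _ _).trans (le_max_left _ _)).trans_lt h6)) h3
    rcases hr h4 with h5 | h5
    · exact Or.inl h5
    · exact Or.inr (Or.inl h5)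

omit [Group Γ] in
theorem bb_rhs' (hN : ∀ i, 1 ≤ N i) (i : J) (R : ℝ) :
    ∃ r, BB (g1 fun γ => ct (q i γ)) (g2 (fun γ => ct (q i γ)) (rhs q s₀ i)) r ⊆
      {γ | R < G1 (q i γ)⁻¹ ∧ R < G2 (q i γ)⁻¹} ∪
      ({γ | R < nm (q i γ) ∧ ∃ j, j ≠ i ∧ R < nm (q j γ)} ∪
        {γ | R < nm (q i γ) ∧ R < s₀ γ}) := by
  obtain ⟨r, hr⟩ := bb_mix' (q := q) hN i R
  obtain ⟨r1, hr1⟩ := nm_large (k := l i) (hN i) R
  refine ⟨max (max R r1) r, fun γ hγ => ?_⟩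
  obtain ⟨h1, h2⟩ := hγ
  by_cases h3 : R < s₀ γ
  · refine Or.inr (Or.inr ⟨hr1 _ (Or.inr ?_), h3⟩)
    have e1 : G1 (ct (q i γ)) = G1 (q i γ)⁻¹ := G1_ta _
    have h4 : r1 < g1 (fun γ => ct (q i γ)) γ :=
      ((le_max_right _ _).trans (le_max_left _ _)).trans_lt h1
    rw [← e1]
    exact h4
  · have h4 : γ ∈ BB (g1 fun γ => ct (q i γ)) (g2 (fun γ => ct (q i γ)) (rho q i)) r := by
      refine ⟨(le_max_right _ _).trans_lt h1, ?_⟩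
      rcases lt_max_iff.1 h2 with h5 | h5
      · exact lt_max_of_lt_left ((le_max_right _ _).trans_lt h5)
      · rcases lt_max_iff.1 h5 with h6 | h6
        · exact lt_max_of_lt_right ((le_max_right _ _).trans_lt h6)
        · exact absurd ((((le_max_left _ _).trans (le_max_left _ _)).trans_lt h6)) h3
    rcases hr h4 with h5 | h5
    · exact Or.inl h5
    · exact Or.inr (Or.inl h5)

/-- **The regular elements of every coordinate, points.** -/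
theorem bb_of {Br : ℝ → Set Γ} (h : RG q Br) (hN : ∀ i, 1 ≤ N i)
    (mixs : ∀ (i : J) (r : ℝ), ∃ r' : ℝ, ∀ γ, r' < nm (q i γ) → r' < s₀ γ → γ ∈ Br r)
    (i : J) (r : ℝ) : ∃ r', BB (g1 (q i)) (g2 (q i) (rhs q s₀ i)) r' ⊆ Br r := by
  obtain ⟨r1, h1⟩ := h.pts i r
  obtain ⟨r2, h2⟩ := h.mix' i r
  obtain ⟨r3, h3⟩ := mixs i r
  obtain ⟨r', hr'⟩ := bb_rhs (q := q) (s₀ := s₀) hN i (max r1 (max r2 r3))
  refine ⟨r', fun γ hγ => ?_⟩
  rcases hr' hγ with ⟨a, b⟩ | ⟨a, j, hj, b⟩ | ⟨a, b⟩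
  · exact h1 γ ((le_max_left _ _).trans_lt a) ((le_max_left _ _).trans_lt b)
  · exact h2 γ (((le_max_left _ _).trans (le_max_right _ _)).trans_lt a)
      ⟨j, hj, ((le_max_left _ _).trans (le_max_right _ _)).trans_lt b⟩
  · exact h3 γ (((le_max_right _ _).trans (le_max_right _ _)).trans_lt a)
      (((le_max_right _ _).trans (le_max_right _ _)).trans_lt b)

/-- **The regular elements of every coordinate, hyperplanes.** -/
theorem bb_ct_of {Br : ℝ → Set Γ} (h : RG q Br) (hN : ∀ i, 1 ≤ N i)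
    (mixs : ∀ (i : J) (r : ℝ), ∃ r' : ℝ, ∀ γ, r' < nm (q i γ) → r' < s₀ γ → γ ∈ Br r)
    (i : J) (r : ℝ) :
    ∃ r', BB (g1 fun γ => ct (q i γ)) (g2 (fun γ => ct (q i γ)) (rhs q s₀ i)) r' ⊆ Br r := by
  obtain ⟨r1, h1⟩ := h.hyp i r
  obtain ⟨r2, h2⟩ := h.mix' i r
  obtain ⟨r3, h3⟩ := mixs i r
  obtain ⟨r', hr'⟩ := bb_rhs' (q := q) (s₀ := s₀) hN i (max r1 (max r2 r3))
  refine ⟨r', fun γ hγ => ?_⟩
  have e1 : G1 (ct (q i γ)) = G1 (q i γ)⁻¹ := G1_ta _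
  have e2 : G2 (ct (q i γ)) = G2 (q i γ)⁻¹ := G2_ta _
  rcases hr' hγ with ⟨a, b⟩ | ⟨a, j, hj, b⟩ | ⟨a, b⟩
  · exact h1 γ (by rw [e1]; exact (le_max_left _ _).trans_lt a)
      (by rw [e2]; exact (le_max_left _ _).trans_lt b)
  · exact h2 γ (((le_max_left _ _).trans (le_max_right _ _)).trans_lt a)
      ⟨j, hj, ((le_max_left _ _).trans (le_max_right _ _)).trans_lt b⟩
  · exact h3 γ (((le_max_right _ _).trans (le_max_right _ _)).trans_lt a)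
      (((le_max_right _ _).trans (le_max_right _ _)).trans_lt b)

end tgt

/-! ### The targets: coordinates `q j` over `l j`, letters `q' i` over `l (τ i)` -/

section cmp

variable {Γ J : Type} [Fintype J] {l : J → Type} [∀ j, NontriviallyNormedField (l j)] {N : J → ℕ}
  {τ : J → J} {q : ∀ j, Γ → GG (l j) (N j)} {q' : ∀ i, Γ → GG (l (τ i)) (N i)} {s₀ : Γ → ℝ}

theorem ZS_le (hτ : Function.Bijective τ) (hc : ∀ i, Cmp (q (τ i)) (q' i)) (i : J) (R : ℝ) :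
    ∃ R', ZS q s₀ (τ i) R ⊆ ZS (l := fun i => l (τ i)) q' s₀ i R' := by
  choose C hC using fun l => (hc l).le R
  obtain ⟨M, hM⟩ := exists_max C
  exact ⟨max M R, fun γ hγ => ⟨fun l hl => ((hC l γ (hγ.1 (τ l) fun h => hl (hτ.1 h))).trans
    (hM l)).trans (le_max_left _ _), hγ.2.trans (le_max_right _ _)⟩⟩

theorem ZS_ge (hτ : Function.Bijective τ) (hc : ∀ i, Cmp (q (τ i)) (q' i)) (i : J) (R : ℝ) :
    ∃ R', ZS (l := fun i => l (τ i)) q' s₀ i R ⊆ ZS q s₀ (τ i) R' := by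
  choose C hC using fun l => (hc l).ge R
  obtain ⟨M, hM⟩ := exists_max C
  refine ⟨max M R, fun γ hγ => ⟨fun j hj => ?_, hγ.2.trans (le_max_right _ _)⟩⟩
  obtain ⟨l, rfl⟩ := hτ.2 j
  exact ((hC l γ (hγ.1 l fun h => hj (by rw [h]))).trans (hM l)).trans (le_max_left _ _)

theorem finS_cmp (hτ : Function.Bijective τ) (hc : ∀ i, Cmp (q (τ i)) (q' i))
    (hf : ∀ C : ℝ, {γ | (∀ j, nm (q j γ) ≤ C) ∧ s₀ γ ≤ C}.Finite) (C : ℝ) :
    {γ | (∀ j, nm (q' j γ) ≤ C) ∧ s₀ γ ≤ C}.Finite := by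
  choose D hD using fun l => (hc l).ge C
  obtain ⟨M, hM⟩ := exists_max D
  refine (hf (max M C)).subset fun γ hγ => ⟨fun j => ?_, hγ.2.trans (le_max_right _ _)⟩
  obtain ⟨l, rfl⟩ := hτ.2 j
  exact ((hD l γ (hγ.1 l)).trans (hM l)).trans (le_max_left _ _)

theorem injS_cmp (hτ : Function.Bijective τ) (hc : ∀ i, Cmp (q (τ i)) (q' i)) (γ : Γ)
    (h : ∀ j, sp (l (τ j)) (N j + 1) (q' j γ) = 1) (j : J) :
    sp (l j) (N j + 1) (q j γ) = 1 := by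
  obtain ⟨l, rfl⟩ := hτ.2 j
  exact (hc l).ker γ (h l)

end cmp

/-! ### The positions -/

section pos

variable {G Γ K κ : Type} [Group G] [Group Γ] [Fintype κ]
  [NormedAddCommGroup K] [InnerProductSpace ℂ K] [CompleteSpace K]
  {π : G →* (K →L[ℂ] K)} {lam : Γ →* (K →L[ℂ] K)} {W : Set (K →L[ℂ] K)} {Ω : κ → K}
  {m : Set Γ → (K →L[ℂ] K)}

/-- the positions, from the tightness of the other coordinates and of the passive size and the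
positions in the coordinate `j`; families -/
theorem posS_of {J : Type} [Fintype J] [DecidableEq J] {k : J → Type}
    [∀ j, NontriviallyNormedField (k j)] {N : J → ℕ} {q : ∀ j, Γ → GG (k j) (N j)} {s₀ : Γ → ℝ}
    (hM : MsF lam W Ω m) (hN : ∀ j, 1 ≤ N j) (j : J) {b : G}
    (tight : ∀ (i : κ) (ε : ℝ), 0 < ε → ∃ r : ℝ, ∀ v ∈ Subgroup.zpowers b,
      ‖m {γ | ∃ j', j' ≠ j ∧ r < nm (q j' γ)} (π v (Ω i))‖ ≤ ε)
    (tights : ∀ (i : κ) (ε : ℝ), 0 < ε → ∃ r : ℝ, ∀ v ∈ Subgroup.zpowers b,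
      ‖m {γ | r < s₀ γ} (π v (Ω i))‖ ≤ ε)
    (hpos : ∀ (i : κ) (ε : ℝ), 0 < ε → ∃ r : ℝ, ∀ᶠ t : ℕ in atTop,
      ‖m {γ | r < G2 (q j γ) ∧ r < G2 (ct (q j γ))} (π (b ^ t) (Ω i))‖ ≤ ε) :
    PosF m π Ω (g2 (q j) (rhs q s₀ j)) (g2 (fun γ => ct (q j γ)) (rhs q s₀ j)) b := by
  intro i ε hε
  obtain ⟨r0, h0⟩ := posF_of (q := q) hM hN j tight hpos i (ε / 2) (half_pos hε)
  obtain ⟨r2, h2⟩ := tights i (ε / 2) (half_pos hε)
  refine ⟨max r0 r2, h0.mono fun t ht => ?_⟩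
  have h4 := h2 (b ^ t) (Subgroup.pow_mem _ (Subgroup.mem_zpowers b) t)
  refine (mf_or hM (A := {γ | r0 < g2 (q j) (rho q j) γ ∧
      r0 < g2 (fun γ => ct (q j γ)) (rho q j) γ})
    (B := {γ | r2 < s₀ γ}) ?_ _).trans
    ((add_le_add ht h4).trans (le_of_eq (add_halves ε)))
  rintro γ ⟨h5, h6⟩
  by_cases hγ : r2 < s₀ γ
  · exact Or.inr hγ
  · left
    have h7 : s₀ γ ≤ max r0 r2 := (not_lt.1 hγ).trans (le_max_right _ _)
    refine ⟨?_, ?_⟩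
    · rcases lt_max_iff.1 h5 with h9 | h9
      · exact lt_max_of_lt_left ((le_max_left _ _).trans_lt h9)
      · rcases lt_max_iff.1 h9 with h10 | h10
        · exact lt_max_of_lt_right ((le_max_left _ _).trans_lt h10)
        · exact absurd h10 (not_lt.2 h7)
    · rcases lt_max_iff.1 h6 with h9 | h9
      · exact lt_max_of_lt_left ((le_max_left _ _).trans_lt h9)
      · rcases lt_max_iff.1 h9 with h10 | h10
        · exact lt_max_of_lt_right ((le_max_left _ _).trans_lt h10)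
        · exact absurd h10 (not_lt.2 h7)

end pos

/-! ### The leg of a factor and a coordinate -/

section pair

variable {E : Type} [Group E] [TopologicalSpace E] [IsTopologicalGroup E] [LocallyCompactSpace E]
  [SecondCountableTopology E] [T2Space E] [MeasurableSpace E] [BorelSpace E]
  {Γ : Subgroup E} [DiscreteTopology Γ] [Countable Γ] [MeasurableSpace (E ⧸ Γ)]
  [BorelSpace (E ⧸ Γ)] {ν : Measure (E ⧸ Γ)} [IsProbabilityMeasure ν]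
  (hν : ∀ g : E, ν.map (fun x => g • x) = ν)
  {ℋ κ κ' : Type} [Fintype κ] [Fintype κ'] [NormedAddCommGroup ℋ]
  [InnerProductSpace ℂ ℋ] [CompleteSpace ℋ] {V R₁ R₂ : Γ →* (ℋ →L[ℂ] ℋ)} {ξ : κ → ℋ}
  {ξ' : κ' → ℋ} (hT : Tri V R₁ R₂ ξ)
  (hΓ : ∀ g : Γ, g ≠ 1 → Set.Infinite {y : Γ | ∃ h, y = h * g * h⁻¹}) (hT' : Tri R₁ V R₂ ξ')
  (hh : Hon R₁ R₂ ξ)
  (hP : PicF (H34.Ind.pi (cdat ν hν) (V := V) hT.adjV) (H34.Ind.lam (cdat ν hν) R₁)
    (WT (cdat ν hν) R₂) (OmN hν ξ))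
  {J : Type} [Fintype J] [DecidableEq J] {n : ℕ} {N : J → ℕ} {Br : ℝ → Set Γ}

include hΓ hT' hh hP

/-- **The leg of a factor of the source and the coordinate `j` of the target**, two fields, passive
places. -/
theorem leg_pairM {kS : Type} [NontriviallyNormedField kS] [ProperSpace kS]
    {l : J → Type} [∀ j, NontriviallyNormedField (l j)] [∀ j, ProperSpace (l j)]
    {ι : GG kS n →* E} {a a' : E →* PG kS (n + 1)} {w : kSˣ} {q : ∀ j, Γ → GG (l j) (N j)}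
    {s₀ : Γ → ℝ} [MeasurableSpace kS] {μ : Measure kS}
    (had : Adm ι a a') (hw : ‖(w : kS)‖ < 1) (hz : Cz w ι a a')
    (hN : ∀ j, 1 ≤ N j) (hq : ∀ j, PH (q j)) (hs : SizS s₀)
    (fin : ∀ C : ℝ, {γ | (∀ j, nm (q j γ) ≤ C) ∧ s₀ γ ≤ C}.Finite) (j : J) (e : N j = n)
    (hB₁ : ∀ r, ∃ r', BB (g1 (q j)) (g2 (q j) (rhs q s₀ j)) r' ⊆ Br r)
    (hB₂ : ∀ r, ∃ r', BB (g1 fun γ => ct (q j γ)) (g2 (fun γ => ct (q j γ)) (rhs q s₀ j)) r'
      ⊆ Br r)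
    (nrm : ∀ ε : ℝ, 0 < ε → ∃ r, ∀ u ∈ Subgroup.zpowers (ι (bw w)),
      msT (cdat ν hν) hT u (Br r) ≤ ε)
    (hL : ∀ q' : Γ → GG (l j) n, PH q' →
      H725.SN.LegBF μ w ι (H34.Ind.pi (cdat ν hν) (V := V) hT.adjV)
        (H34.Ind.lam (cdat ν hν) R₁) (WT (cdat ν hν) R₂) (OmN hν ξ)
        (st (mT (cdat ν hν) hT)) q')
    (nis : ∀ d, 1 ≤ d → d ≤ N j → NIS fun (γ : Γ) (x : Gr (l j) (Fin (N j + 1)) d) => q j γ • x)
    (nis' : ∀ d, 1 ≤ d → d ≤ N j →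
      NIS fun (γ : Γ) (x : Gr (l j) (Fin (N j + 1)) d) => ct (q j γ) • x)
    (tight : ∀ (i : κ) (ε : ℝ), 0 < ε → ∃ r : ℝ, ∀ v ∈ Subgroup.zpowers (ι (bw w)),
      ‖st (mT (cdat ν hν) hT) {γ | ∃ j', j' ≠ j ∧ r < nm (q j' γ)}
        (H34.Ind.pi (cdat ν hν) (V := V) hT.adjV v (OmN hν ξ i))‖ ≤ ε)
    (tights : ∀ (i : κ) (ε : ℝ), 0 < ε → ∃ r : ℝ, ∀ v ∈ Subgroup.zpowers (ι (bw w)),
      ‖st (mT (cdat ν hν) hT) {γ | r < s₀ γ}
        (H34.Ind.pi (cdat ν hν) (V := V) hT.adjV v (OmN hν ξ i))‖ ≤ ε)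
    (hpos : ∀ (i : κ) (ε : ℝ), 0 < ε → ∃ r : ℝ, ∀ᶠ t : ℕ in atTop,
      ‖st (mT (cdat ν hν) hT) {γ | r < G2 (q j γ) ∧ r < G2 (ct (q j γ))}
        (H34.Ind.pi (cdat ν hν) (V := V) hT.adjV (ι (bw w) ^ t) (OmN hν ξ i))‖ ≤ ε)
    (hpos' : ∀ (i : κ) (ε : ℝ), 0 < ε → ∃ r : ℝ, ∀ᶠ t : ℕ in atTop,
      ‖st (mT (cdat ν hν) hT) {γ | r < G2 (q j γ) ∧ r < G2 (ct (q j γ))}
        (H34.Ind.pi (cdat ν hν) (V := V) hT.adjV ((ι (bw w))⁻¹ ^ t) (OmN hν ξ i))‖ ≤ ε) :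
    ∃ (q' : Γ → GG (l j) n) (Ec F : YY kS n → (CY (l j) n →⋆ₐ[ℂ]
        (Lp ℋ 2 (cdat ν hν).μ →L[ℂ] Lp ℋ 2 (cdat ν hν).μ))),
      Cmp (q j) q' ∧
      SX.LegNF μ w ι a a' (H34.Ind.pi (cdat ν hν) (V := V) hT.adjV)
        (H34.Ind.lam (cdat ν hν) R₁) (WT (cdat ν hν) R₂)
        (OmN hν ξ) (st (mT (cdat ν hν) hT)) q' (ZS q s₀ j) Ec F := by
  subst e
  have hM := msF_N hν hT hΓ hT' hh
  have pos := posS_of (q := q) (s₀ := s₀) hM hN j tight tights hpos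
  have pos' := posS_of (q := q) (s₀ := s₀) (b := (ι (bw w))⁻¹) hM hN j
    (by rw [Subgroup.zpowers_inv]; exact tight) (by rw [Subgroup.zpowers_inv]; exact tights) hpos'
  obtain ⟨q', hq', Ec, F, hL'⟩ := legG_firstX (μ := μ) hν hT hΓ hT' hh hP had hw hz
    (tg_rhs hN hq hs fin j) hB₁ hB₂ nrm hL nis nis' pos pos'
  refine ⟨q', Ec, F, ?_, legXF_change hL' (ZS_mono j) (ZS_of_rhs hN j) (rhs_of_ZS hN j)⟩
  rcases hq' with rfl | rfl
  · exact Cmp.refl _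
  · exact cmp_ct _

end pair

section ex

variable {E : Type} [Group E] [TopologicalSpace E] [IsTopologicalGroup E] [LocallyCompactSpace E]
  [SecondCountableTopology E] [T2Space E] [MeasurableSpace E] [BorelSpace E]
  {Γ : Subgroup E} [DiscreteTopology Γ] [Countable Γ] [MeasurableSpace (E ⧸ Γ)]
  [BorelSpace (E ⧸ Γ)] {ν : Measure (E ⧸ Γ)} [IsProbabilityMeasure ν]
  (hν : ∀ g : E, ν.map (fun x => g • x) = ν)
  {ℋ κ κ' : Type} [Fintype κ] [Fintype κ'] [NormedAddCommGroup ℋ]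
  [InnerProductSpace ℂ ℋ] [CompleteSpace ℋ] {V R₁ R₂ : Γ →* (ℋ →L[ℂ] ℋ)} {ξ : κ → ℋ}
  {ξ' : κ' → ℋ} (hT : Tri V R₁ R₂ ξ)
  (hΓ : ∀ g : Γ, g ≠ 1 → Set.Infinite {y : Γ | ∃ h, y = h * g * h⁻¹}) (hT' : Tri R₁ V R₂ ξ')
  (hh : Hon R₁ R₂ ξ)
  (hP : PicF (H34.Ind.pi (cdat ν hν) (V := V) hT.adjV) (H34.Ind.lam (cdat ν hν) R₁)
    (WT (cdat ν hν) R₂) (OmN hν ξ))
  {J : Type} [Fintype J] [DecidableEq J] {N : J → ℕ}

include hΓ hT' hh hP

/-- **The first family of legs, all `t`, two fields, passive places.** -/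
theorem exPM_of {k l : J → Type} [∀ j, NontriviallyNormedField (k j)] [∀ j, ProperSpace (k j)]
    [∀ j, MeasurableSpace (k j)] {μ : ∀ j, Measure (k j)}
    [∀ j, NontriviallyNormedField (l j)] [∀ j, ProperSpace (l j)]
    {ι : ∀ j, GG (k j) (N j) →* E} {a a' : ∀ j, E →* PG (k j) (N j + 1)}
    {w : ∀ j, (k j)ˣ} {q : ∀ j, Γ → GG (l j) (N j)} {s₀ : Γ → ℝ}
    (hA : ∀ j, Adm (ι j) (a j) (a' j))
    (hw : ∀ j, ‖(w j : k j)‖ < 1) (hz : ∀ j, Cz (w j) (ι j) (a j) (a' j))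
    (hL : ∀ i j (q' : Γ → GG (l j) (N i)), PH q' →
      H725.SN.LegBF (μ i) (w i) (ι i) (H34.Ind.pi (cdat ν hν) (V := V) hT.adjV)
        (H34.Ind.lam (cdat ν hν) R₁) (WT (cdat ν hν) R₂) (OmN hν ξ)
        (st (mT (cdat ν hν) hT)) q')
    (hq : ∀ j, PH (q j)) (hs : SizS s₀)
    (fin : ∀ C : ℝ, {γ : Γ | (∀ j, nm (q j γ) ≤ C) ∧ s₀ γ ≤ C}.Finite)
    (nis : ∀ j d, 1 ≤ d → d ≤ N j →
      NIS fun (γ : Γ) (x : Gr (l j) (Fin (N j + 1)) d) => q j γ • x)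
    (nis' : ∀ j d, 1 ≤ d → d ≤ N j →
      NIS fun (γ : Γ) (x : Gr (l j) (Fin (N j + 1)) d) => ct (q j γ) • x)
    {Br : ℝ → Set Γ} {τ : J → J} (h : OutM hν hT ι w q s₀ Br τ) :
    ∃ (q' : ∀ j, Γ → GG (l (τ j)) (N j))
      (E₁ F₁ : ∀ j, YY (k j) (N j) → (CY (l (τ j)) (N j) →⋆ₐ[ℂ]
        (Lp ℋ 2 (cdat ν hν).μ →L[ℂ] Lp ℋ 2 (cdat ν hν).μ))),
      (∀ j, SX.LegNF (μ j) (w j) (ι j) (a j) (a' j)
        (H34.Ind.pi (cdat ν hν) (V := V) hT.adjV)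
        (H34.Ind.lam (cdat ν hν) R₁) (WT (cdat ν hν) R₂)
        (OmN hν ξ) (st (mT (cdat ν hν) hT)) (q' j) (ZS (l := fun i => l (τ i)) q' s₀ j)
        (E₁ j) (F₁ j)) ∧
      (∀ γ, (∀ j, sp (l (τ j)) (N j + 1) (q' j γ) = 1) → ∀ j, sp (l j) (N j + 1) (q j γ) = 1) ∧
      ∀ C : ℝ, {γ : Γ | (∀ j, nm (q' j γ) ≤ C) ∧ s₀ γ ≤ C}.Finite := by
  have hN2 : ∀ j, 2 ≤ N j := fun j => (hA j).hN
  have hN1 : ∀ j, 1 ≤ N j := fun j => le_trans one_le_two (hN2 j)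
  have h1 := fun i => leg_pairM (μ := μ i) hν hT hΓ hT' hh hP (hA i) (hw i) (hz i) hN1 hq hs fin
    (τ i) (h.dim i) (bb_of h.rg hN1 h.mixs (τ i)) (bb_ct_of h.rg hN1 h.mixs (τ i)) (h.nrm i)
    (hL i (τ i)) (nis (τ i)) (nis' (τ i)) (h.tight i) (h.tights i) (h.pos i) (h.pos' i)
  choose q' E₁ F₁ hc hl using h1
  exact ⟨q', E₁, F₁, fun j => legXF_change (hl j) (ZS_mono (l := fun i => l (τ i)) (q := q') j)
    (ZS_le h.bij hc j) (ZS_ge h.bij hc j), injS_cmp h.bij hc, finS_cmp h.bij hc fin⟩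

end ex

end Vale.Agent.P092.H962.MX
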