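import Vale.Agent.P092.H962.NT.OutHH
import Vale.Agent.P092.H962.MX.PairM
import Vale.Agent.P092.MX.Defs

/-!
P092 (helper962), project MIX, all `t`: from the output of the wall analysis (`OutM`) to one leg of
the D-factors in the letters of `MX.ExMHalf`.
-/

set_option linter.all false

open scoped InnerProductSpace ENNReal LinearAlgebra.Projectivization ZeroAtInfty
open Filter Topology ContinuousLinearMap MeasureTheory TopologicalSpace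

namespace Vale.Agent.P092.H962.MX

open Vale.Agent.P092.SR Vale.Agent.P092.H160 Vale.Agent.P092.H103 Vale.Agent.P092.H962
open Vale.Agent.P092.H962.NT
open Vale.Agent.P092.H21 (mT WT Hon)
open Vale.Agent.P092.H85 (cdat)
open Vale.Agent.P092.H859.CL (st)
open Vale.Agent.P092.RC (GG PG YY y0 ct PicF adjV3)
open Vale.Agent.P092.SN (CY PH UD Adm bw un nm)
open Vale.Agent.P092.H100.Gr (Gr)
open Vale.Agent.P092.H76.Pur (NIS)
open Vale.Agent.P092.H35 (sp)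
open Vale.Agent.P092.H368.SN (Cz)
open Vale.Agent.P092.H337.NG (SizS)

section ex

variable {E : Type} [Group E] [TopologicalSpace E] [IsTopologicalGroup E] [LocallyCompactSpace E]
  [SecondCountableTopology E] [T2Space E] [MeasurableSpace E] [BorelSpace E]
  {Γ : Subgroup E} [DiscreteTopology Γ] [Countable Γ] [MeasurableSpace (E ⧸ Γ)]
  [BorelSpace (E ⧸ Γ)] {ν : Measure (E ⧸ Γ)} [IsProbabilityMeasure ν]
  (hν : ∀ g : E, ν.map (fun x => g • x) = ν)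
  (hΓ : ∀ g : Γ, g ≠ 1 → Set.Infinite {y : Γ | ∃ h, y = h * g * h⁻¹})
  {Λ : Type} [Group Λ] [Countable Λ]
  (hΛ : ∀ s : Λ, s ≠ 1 → Set.Infinite {y : Λ | ∃ h, y = h * s * h⁻¹})
  {I : Type} [Fintype I] {α : Γ → (Ell2 (I × Λ) →L[ℂ] Ell2 (I × Λ))} (hα : AF α)
  {J B : Type} [Fintype J] [DecidableEq J] {N : J → ℕ} {T : B → Type} [∀ b, Group (T b)]
  [∀ b, TopologicalSpace (T b)]

set_option maxHeartbeats 4000000 in
include hΓ hΛ in
/-- **The first family of legs with passive places, all `t`**: the body of `MX.ExMHalf`. -/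
theorem exM1_of {k l : J → Type} [∀ j, NontriviallyNormedField (k j)] [∀ j, ProperSpace (k j)]
    [∀ j, MeasurableSpace (k j)] {μ : ∀ j, Measure (k j)}
    [∀ j, NontriviallyNormedField (l j)] [∀ j, ProperSpace (l j)]
    {ι : ∀ j, GG (k j) (N j) →* E} {a a' : ∀ j, E →* PG (k j) (N j + 1)}
    {w : ∀ j, (k j)ˣ} {q : ∀ j, Γ → GG (l j) (N j)} {s₀ : Γ → ℝ} {p : ∀ b, Γ →* T b}
    (hA : ∀ j, Adm (ι j) (a j) (a' j))
    (hw : ∀ j, ‖(w j : k j)‖ < 1) (hz : ∀ j, Cz (w j) (ι j) (a j) (a' j))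
    (hL : ∀ {κ : Type} [Fintype κ] {ξ : κ → HH (PT α α α)}
      (hT : Tri (V3 hα hα hα) (A3R hα hα hα) (B3R hα hα hα) ξ)
      (_ : Hon (A3R hα hα hα) (B3R hα hα hα) ξ) i j (q' : Γ → GG (l j) (N i)), PH q' →
      H725.SN.LegBF (μ i) (w i) (ι i) (H34.Ind.pi (cdat ν hν) (V := V3 hα hα hα) hT.adjV)
        (H34.Ind.lam (cdat ν hν) (A3R hα hα hα)) (WT (cdat ν hν) (B3R hα hα hα)) (OmN hν ξ)
        (st (mT (cdat ν hν) hT)) q')
    (hq : ∀ j, PH (q j)) (hs : SizS s₀) (hG : Vale.Agent.P092.MX.Gauge p s₀)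
    (fin : ∀ C : ℝ, {γ : Γ | (∀ j, nm (q j γ) ≤ C) ∧ s₀ γ ≤ C}.Finite)
    (inj : ∀ γ, (∀ j, sp (l j) (N j + 1) (q j γ) = 1) → (∀ b, p b γ = 1) → γ = 1)
    (nis : ∀ j d, 1 ≤ d → d ≤ N j →
      NIS fun (γ : Γ) (x : Gr (l j) (Fin (N j + 1)) d) => q j γ • x)
    (nis' : ∀ j d, 1 ≤ d → d ≤ N j →
      NIS fun (γ : Γ) (x : Gr (l j) (Fin (N j + 1)) d) => ct (q j γ) • x)
    (hO : ∀ {κ : Type} [Fintype κ] {ξ : κ → HH (PT α α α)}
      (hT : Tri (V3 hα hα hα) (A3R hα hα hα) (B3R hα hα hα) ξ)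
      (_ : Hon (A3R hα hα hα) (B3R hα hα hα) ξ),
      ∃ (Br : ℝ → Set Γ) (τ : J → J), OutM hν hT ι w q s₀ Br τ) :
    ∃ (w : ∀ j, (k j)ˣ) (κ : Type) (_ : Fintype κ)
      (Ω : κ → Lp (HH (PT α α α)) 2 (cdat ν hν).μ)
      (m : Set Γ → (Lp (HH (PT α α α)) 2 (cdat ν hν).μ →L[ℂ]
        Lp (HH (PT α α α)) 2 (cdat ν hν).μ)) (τ : J → J) (q : ∀ j, Γ → GG (l (τ j)) (N j))
      (s₀ : Γ → ℝ) (Ec F : ∀ j, YY (k j) (N j) → (CY (l (τ j)) (N j) →⋆ₐ[ℂ]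
        (Lp (HH (PT α α α)) 2 (cdat ν hν).μ →L[ℂ] Lp (HH (PT α α α)) 2 (cdat ν hν).μ))),
      Vale.Agent.P092.MX.Gauge p s₀ ∧
      (∀ j, SX.LegNF (μ j) (w j) (ι j) (a j) (a' j)
        (H34.Ind.pi (cdat ν hν) (V := V3 hα hα hα) (adjV3 hα))
        (H34.Ind.lam (cdat ν hν) (A3R hα hα hα))
        (H34.Ind.Xset (cdat ν hν) (HH (PT α α α)) ∪
          Set.range (H34.Ind.lam (cdat ν hν) (B3R hα hα hα))) Ω m (q j)
        (Vale.Agent.P092.MX.ZM (k := fun i => l (τ i)) q s₀ j) (Ec j) (F j)) ∧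
      (∀ γ, (∀ j, sp (l (τ j)) (N j + 1) (q j γ) = 1) → (∀ b, p b γ = 1) → γ = 1) ∧
      (∀ C : ℝ, {γ : Γ | (∀ j, nm (q j γ) ≤ C) ∧ s₀ γ ≤ C}.Finite) := by
  rcases isEmpty_or_nonempty J with hJ | hJ
  · exact ⟨w, Fin 0, inferInstance, fun _ => 0, fun _ => 0, id, q, s₀, fun j => isEmptyElim j,
      fun j => isEmptyElim j, hG, fun j => isEmptyElim j, inj, fin⟩
  · obtain ⟨m, ξ, hT, hh⟩ := Vale.Agent.P092.H458.Hon.hon hα hα hΛ
    obtain ⟨n, n', ζ, h'⟩ := exists_tri' hα hα hα hΛ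
    haveI : NoncompactSpace E := H859.ExB.noncpt (hA hJ.some) (hw hJ.some)
    obtain ⟨Br, τ, hO⟩ := hO hT hh
    obtain ⟨q', E₁, F₁, l1, i1, f1⟩ := exPM_of (μ := μ) hν hT hΓ h' hh
      (picF_HH hν hΓ hΛ hα hT) hA hw hz (hL hT hh) hq hs fin nis nis' hO
    exact ⟨w, Fin m, inferInstance, _, _, τ, q', s₀, E₁, F₁, hG, l1,
      fun γ h1 h2 => inj γ (i1 γ h1) h2, f1⟩

end ex

end Vale.Agent.P092.H962.MX
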