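import Vale.Agent.P092.H962.MX.Coord
import Vale.Agent.P092.H515.Mx.Len
import Vale.Agent.P092.H337.NGg
import Vale.Agent.P092.H962.MX.ExM
import Vale.Agent.P092.H725.SN.GK4
import Vale.Agent.P092.H515.Mx.OutHH

/-!
P092 (helper962), project MIX, the D-half over a general group `E`: `MX.ExMHalf` from the
coordinates, the gap, the gauge and the discreteness of the projection to the N-places.
-/

set_option linter.all false

open scoped InnerProductSpace ENNReal LinearAlgebra.Projectivization ZeroAtInfty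
open Filter Topology ContinuousLinearMap MeasureTheory TopologicalSpace

namespace Vale.Agent.P092.H962.MX

open Vale.Agent.P092.SR Vale.Agent.P092.H160 Vale.Agent.P092.H103 Vale.Agent.P092.H962
open Vale.Agent.P092.H962.NT
open Vale.Agent.P092.H21 (mT WT Hon)
open Vale.Agent.P092.H85 (cdat)
open Vale.Agent.P092.H859.CL (st)
open Vale.Agent.P092.RC (GG PG YY y0 ct PicF adjV3)
open Vale.Agent.P092.SN (CY PH UD Adm bw un nm)
open Vale.Agent.P092.H35 (sp)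
open Vale.Agent.P092.H368.SN (Cz)
open Vale.Agent.P092.H725.SN (LeviGapK)
open Vale.Agent.P092.H337.NG (SizS)
open Vale.Agent.P092.MX (Gauge NLeg ExMHalf)

section leg

variable {E : Type} [Group E] [TopologicalSpace E] [IsTopologicalGroup E] [LocallyCompactSpace E]
  [SecondCountableTopology E] [T2Space E] [MeasurableSpace E] [BorelSpace E]
  {Γ : Subgroup E} [DiscreteTopology Γ] [Countable Γ] [MeasurableSpace (E ⧸ Γ)]
  [BorelSpace (E ⧸ Γ)] {ν : Measure (E ⧸ Γ)} [IsProbabilityMeasure ν]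
  (hν : ∀ g : E, ν.map (fun x => g • x) = ν)
  (hΓ : ∀ g : Γ, g ≠ 1 → Set.Infinite {y : Γ | ∃ h, y = h * g * h⁻¹})
  {Λ : Type} [Group Λ] [Countable Λ]
  (hΛ : ∀ s : Λ, s ≠ 1 → Set.Infinite {y : Λ | ∃ h, y = h * s * h⁻¹})
  {I : Type} [Fintype I] {α : Γ → (Ell2 (I × Λ) →L[ℂ] Ell2 (I × Λ))} (hα : AF α)

set_option maxHeartbeats 1000000 in
include hΓ hΛ in
theorem legB_M {k l : Type} [NontriviallyNormedField k] [ProperSpace k] [MeasurableSpace k]
    [BorelSpace k] {μ : Measure k} [μ.IsAddHaarMeasure] [NontriviallyNormedField l] {N : ℕ}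
    {ι : GG k N →* E} {a a' : E →* PG k (N + 1)} {w : kˣ} (hA : Adm ι a a') (hw : ‖(w : k)‖ < 1)
    (hb : LeviGapK (ι (bw w))) {κ : Type} [Fintype κ] {ξ : κ → HH (PT α α α)}
    (hT : Tri (V3 hα hα hα) (A3R hα hα hα) (B3R hα hα hα) ξ)
    (hh : Hon (A3R hα hα hα) (B3R hα hα hα) ξ) (q' : Γ → GG l N) (hq' : PH q') :
    H725.SN.LegBF μ w ι (H34.Ind.pi (cdat ν hν) (V := V3 hα hα hα) hT.adjV)
      (H34.Ind.lam (cdat ν hν) (A3R hα hα hα)) (WT (cdat ν hν) (B3R hα hα hα)) (OmN hν ξ)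
      (st (mT (cdat ν hν) hT)) q' := by
  obtain ⟨n, n', ζ, h'⟩ := exists_tri' hα hα hα hΛ
  exact H725.SN.legBFK_HH₁ (μ := μ) hν hα hα hα hΓ hΛ hA hw hq' hb hT (msF_N hν hT hΓ h' hh)

end leg

section half

variable {J B : Type} [Fintype J] [Nonempty J] [DecidableEq J] [Fintype B]
  {k l : J → Type} [∀ j, NontriviallyNormedField (k j)] [∀ j, ProperSpace (k j)]
  [∀ j, MeasurableSpace (k j)] [∀ j, BorelSpace (k j)] {μ : ∀ j, Measure (k j)}
  [∀ j, (μ j).IsAddHaarMeasure] [∀ j, NontriviallyNormedField (l j)] [∀ j, ProperSpace (l j)]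
  {N : J → ℕ} {E : Type} [Group E] [TopologicalSpace E] [IsTopologicalGroup E]
  [LocallyCompactSpace E] [SecondCountableTopology E] [T2Space E]
  {ι : ∀ j, GG (k j) (N j) →* E} {a a' : ∀ j, E →* PG (k j) (N j + 1)} {Γ : Subgroup E}
  {T : B → Type} [∀ b, Group (T b)] [∀ b, TopologicalSpace (T b)] [∀ b, IsTopologicalGroup (T b)]
  [∀ b, LocallyCompactSpace (T b)] [∀ b, T2Space (T b)] {p : ∀ b, Γ →* T b}

set_option maxHeartbeats 1000000 in
/-- **The D-half over a general group.** -/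
theorem exMHalf_of (hk : ∀ j, H933.LocK (k j)) (hl : ∀ j, H933.LocK (l j))
    (hicc : ∀ g : Γ, g ≠ 1 → Set.Infinite {y : Γ | ∃ h, y = h * g * h⁻¹})
    {w : ∀ j, (k j)ˣ} (hw : ∀ j, ‖(w j : k j)‖ < 1) (hA : ∀ j, Adm (ι j) (a j) (a' j))
    (hcomm : ∀ i j, i ≠ j → ∀ g h, Commute (ι i g) (ι j h))
    (hz : ∀ j, Cz (w j) (ι j) (a j) (a' j)) (hb : ∀ j, LeviGapK (ι j (bw (w j))))
    {q : ∀ j, Γ → GG (l j) (N j)} (hq : CoordM a Γ l q) {s₀ : Γ → ℝ} (hs : H515.Mx.Len s₀)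
    (hG : Gauge p s₀) (fin : ∀ C : ℝ, {γ : Γ | (∀ j, nm (q j γ) ≤ C) ∧ s₀ γ ≤ C}.Finite)
    (inj : ∀ γ, (∀ j, sp (l j) (N j + 1) (q j γ) = 1) → (∀ b, p b γ = 1) → γ = 1)
    (hd : ∀ C : Set (∀ b, T b), IsCompact C →
      (Set.range (fun (γ : Γ) b => p b γ) ∩ C).Finite) :
    ExMHalf k l μ N ι a a' Γ p := by
  intro _ _ _ _ _ _ ν _ hν Λ _ _ hΛ I _ α hα Q nl
  exact exM1_of (μ := μ) hν hicc hΛ hα hA hw hz
    (fun hT hh i j q' hq' => legB_M hν hicc hΛ hα (hA i) (hw i) (hb i) hT hh q' hq')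
    hq.ph hs.sizS hG fin inj hq.nis hq.nis'
    (fun hT hh => H515.Mx.exists_outM hν hicc hΛ hα hT hh hk hl hA hcomm hw hz hq.ph hs hG
      fin nl hd)

end half

end Vale.Agent.P092.H962.MX
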