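import Vale.Agent.P092.H962.MX.PMa
import Vale.Agent.P092.H962.MX.PMb

/-!
P092 (helper962), project MIX, the D-half of `MixStmt`, all `t`: `MX.ExMHalf` for every lattice of
`EM k N G = ∏ PGL_(N j + 1)(k j) × ∏ G b` with discrete projections to the first and dense
projections to the second factors; the `G b` have property (T).
-/

set_option linter.all false

open scoped InnerProductSpace ENNReal LinearAlgebra.Projectivization ZeroAtInfty
open Filter Topology ContinuousLinearMap MeasureTheory TopologicalSpace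

namespace Vale.Agent.P092.H962.MX

open Vale.Agent.P092.RC (GG PG)
open Vale.Agent.P092.SN (bw nm)
open Vale.Agent.P092.H35 (sp)
open Vale.Agent.P092.MX (EM iM aM aM' pM Gauge NLeg ExMHalf admP_M)
open Vale.Agent.P092.VR (Ov IsRad)
open Vale.Agent.P092.H35.Mx (MinC)

theorem aM_cont {J B : Type} [DecidableEq J] (k : J → Type) [∀ j, NontriviallyNormedField (k j)]
    (N : J → ℕ) (G : B → Type) [∀ b, Group (G b)] [∀ b, TopologicalSpace (G b)] (j : J) :
    Continuous (aM k N G j) :=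
  (continuous_apply j : Continuous fun x : SX.EG k N => x j).comp continuous_fst

theorem aM_sur {J B : Type} [DecidableEq J] (k : J → Type) [∀ j, NontriviallyNormedField (k j)]
    (N : J → ℕ) (G : B → Type) [∀ b, Group (G b)] [∀ b, TopologicalSpace (G b)] (j : J)
    (g : GG (k j) (N j)) : ∃ e, aM k N G j e = sp (k j) (N j + 1) g :=
  ⟨iM k N G j g, Pi.mulSingle_eq_same (M := fun i => PG (k i) (N i + 1)) j _⟩

/-- the quotients by the radicals are Hausdorff -/
theorem t2_quo {M G : Type} [Group M] [TopologicalSpace M] [Group G] [TopologicalSpace G]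
    [IsTopologicalGroup G] [T2Space G] {φ : M →* G} {R : Subgroup G} [R.Normal]
    (h : IsRad φ R) : T2Space (G ⧸ R) := by
  haveI := h.fin
  haveI : IsClosed (R : Set G) := (Set.toFinite (R : Set G)).isClosed
  infer_instance

section pm

variable {J B : Type} [Fintype J] [Nonempty J] [DecidableEq J] [Fintype B] (k : J → Type)
  [∀ j, NontriviallyNormedField (k j)] [∀ j, ProperSpace (k j)]
  [∀ j, MeasurableSpace (k j)] [∀ j, BorelSpace (k j)] (μ : ∀ j, Measure (k j))
  [∀ j, (μ j).IsAddHaarMeasure] (N : J → ℕ) {M G : B → Type} [∀ b, Group (M b)]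
  [∀ b, TopologicalSpace (M b)] [∀ b, Group (G b)] [∀ b, TopologicalSpace (G b)]
  [∀ b, IsTopologicalGroup (G b)] [∀ b, T2Space (G b)] [∀ b, LocallyCompactSpace (G b)]
  [∀ b, SecondCountableTopology (G b)] {φ : ∀ b, M b →* G b} {r : B → ℕ}
  {R : ∀ b, Subgroup (G b)} [∀ b, (R b).Normal]

/-- one lattice -/
theorem exMHalf_lat (hk : ∀ j, H933.LocK (k j))
    (hN : ∀ j, 2 ≤ N j) (hO : ∀ b, Ov (φ b) (r b)) (hR : ∀ b, IsRad (φ b) (R b))
    (hm : ∀ b, MinC (G b)) (hK : ∀ b, KazT (G b)) {l : J → Type}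
    [∀ j, NontriviallyNormedField (l j)] [∀ j, ProperSpace (l j)] (hl : ∀ j, H933.LocK (l j))
    {Γ : Subgroup (EM k N G)} {q : ∀ j, Γ → GG (l j) (N j)} (hq : CoordM (aM k N G) Γ l q)
    (hicc : ∀ g : Γ, g ≠ 1 → Set.Infinite {y : Γ | ∃ h, y = h * g * h⁻¹})
    (hd : ∀ b, DenseRange fun γ : Γ => (γ : EM k N G).2 b)
    (hD : ∀ j, DiscreteTopology (Set.range fun γ : Γ => (γ : EM k N G).1 j))
    (hlat : H515.St.IsLattice Γ) :
    ExMHalf k l μ N (iM k N G) (aM k N G) (aM' k N G) Γ (pT R Γ) := by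
  classical
  haveI : ∀ b, T2Space (G b ⧸ R b) := fun b => t2_quo (hR b)
  haveI : DiscreteTopology Γ := hlat.disc
  obtain ⟨s₀, hs, hG⟩ := exists_gauge (pT R Γ)
  choose c h0 h1 using fun j => NormedField.exists_norm_lt_one (k j)
  have hA := fun j => (admP_M k N G hk hN).adm j
  have hfin := fun C => fin_M (fun b => (hR b).fin) hq hG C
  have hinj := fun γ => inj_M (fun b => (hR b).fin) hicc hq γ
  have hdd := hd_M hO hR hlat hD hm hd
  have hc := fun i j (hij : i ≠ j) g h => comm_M k N G hij g h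
  have hz := fun j => cz_M k N G hk hN j (Units.mk0 (c j) (norm_pos_iff.1 (h0 j)))
  have hb := fun j => leviGapK_M k N G hk hN hK j (Units.mk0 (c j) (norm_pos_iff.1 (h0 j)))
  have h := @exMHalf_of J B _ _ _ _ k l _ _ _ _ μ _ _ _ N (EM k N G) _ _ _ _ _ _ (iM k N G)
    (aM k N G) (aM' k N G) Γ (fun b => G b ⧸ R b) _ _ _ _ _ (pT R Γ) hk hl hicc
    (fun j => Units.mk0 (c j) (norm_pos_iff.1 (h0 j))) h1 hA hc hz hb q hq s₀ hs hG hfin hinj hdd
  exact @h

/-- **The D-half of MIX.** -/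
theorem exMHalf_M (hk : ∀ j, H933.LocK (k j))
    (hN : ∀ j, 2 ≤ N j) (hO : ∀ b, Ov (φ b) (r b)) (hR : ∀ b, IsRad (φ b) (R b))
    (hm : ∀ b, MinC (G b)) (hK : ∀ b, KazT (G b)) :
    ∃ (l : J → Type) (_ : ∀ j, NontriviallyNormedField (l j)) (_ : ∀ j, ProperSpace (l j)),
      (∀ j, H933.LocK (l j)) ∧ ∀ Γ : Subgroup (EM k N G),
        (∀ g : Γ, g ≠ 1 → Set.Infinite {y : Γ | ∃ h, y = h * g * h⁻¹}) →
        (∀ b, DenseRange fun γ : Γ => (γ : EM k N G).2 b) →
        (∀ j, DiscreteTopology (Set.range fun γ : Γ => (γ : EM k N G).1 j)) →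
        H515.St.IsLattice Γ →
        ExMHalf k l μ N (iM k N G) (aM k N G) (aM' k N G) Γ (pT R Γ) := by
  classical
  obtain ⟨l, i1, i2, hl, hc⟩ := exists_coordM k N hk
  refine ⟨l, i1, i2, hl, fun Γ hicc hd hD hlat => ?_⟩
  obtain ⟨q, hq⟩ := hc (aM k N G) (aM_cont k N G) (aM_sur k N G) Γ hlat.covol
  intro _ _ _ _ _ _ ν _ hν Λ _ _ hΛ I _ α hα Q nl
  exact exMHalf_lat k μ N hk hN hO hR hm hK hl hq hicc hd hD hlat hν hΛ hα Q nl

end pm

end Vale.Agent.P092.H962.MX
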