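import Mathlib.Analysis.InnerProductSpace.Basic
import Mathlib.Topology.Algebra.Group.Basic
import Mathlib.Topology.Algebra.Module.Basic
import Mathlib.Analysis.Normed.Operator.Basic

/-!
P092 (helper962, letters of helper259), project MIX: Kazhdan's property (T).
-/

namespace Vale.Agent.P092.H962.MX

/-- **Kazhdan's property (T)**: there are a compact set `Q` and `κ > 0` such that in every strongly
continuous unitary representation without invariant vectors every vector `v` is moved by at least
`κ ‖v‖` by some element of `Q`. -/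
def KazT (G : Type) [Group G] [TopologicalSpace G] : Prop :=
  ∃ (Q : Set G) (κ : ℝ), IsCompact Q ∧ 0 < κ ∧ ∀ (ℋ : Type) [NormedAddCommGroup ℋ]
    [InnerProductSpace ℂ ℋ] [CompleteSpace ℋ] (σ : G →* (ℋ →L[ℂ] ℋ)),
    (∀ g v, ‖σ g v‖ = ‖v‖) → (∀ v, Continuous fun g => σ g v) →
    (∀ v, (∀ g, σ g v = v) → v = 0) → ∀ v, ∃ g ∈ Q, κ * ‖v‖ ≤ ‖σ g v - v‖

end Vale.Agent.P092.H962.MX
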