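import Vale.Agent.P092.H725.SN.GK2
import Vale.Agent.P092.H962.MX.KazT

/-!
P092 (helper962), project MIX: the gap `LeviGapK` for products of groups, and Kazhdan's property (T)
in the form `LeviGapK 1`.
-/

set_option linter.all false

open scoped InnerProductSpace Pointwise
open Filter Topology ContinuousLinearMap

namespace Vale.Agent.P092.H962.MX

open Vale.Agent.P092.H933
open Vale.Agent.P092.H725.SN (LeviGapK)

/-! ### Averages -/

section mn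

variable {E : Type} [Group E] {𝓗 : Type} [NormedAddCommGroup 𝓗] [InnerProductSpace ℂ 𝓗]
  {σ : E →* (𝓗 →L[ℂ] 𝓗)} {C C' : Set E} {m m' : 𝓗 →L[ℂ] 𝓗}

/-- the convex combinations of the operators `σ l`, `l ∈ C` -/
def Mn (σ : E →* (𝓗 →L[ℂ] 𝓗)) (C : Set E) : Set (𝓗 →L[ℂ] 𝓗) :=
  {m | ∃ (p : ℕ) (c : Fin p → ℝ) (l : Fin p → E), (∀ i, 0 ≤ c i) ∧ ∑ i, c i = 1 ∧
    (∀ i, l i ∈ C) ∧ m = ∑ i, (c i : ℂ) • σ (l i)}

theorem mn_mul (h : m ∈ Mn σ C) (h' : m' ∈ Mn σ C') : m * m' ∈ Mn σ (C * C') := by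
  obtain ⟨p, c, l, h0, h1, h2, rfl⟩ := h
  obtain ⟨p', c', l', h0', h1', h2', rfl⟩ := h'
  let f := (finProdFinEquiv (m := p) (n := p')).symm
  refine ⟨p * p', fun i => c (f i).1 * c' (f i).2, fun i => l (f i).1 * l' (f i).2,
    fun i => mul_nonneg (h0 _) (h0' _), ?_, fun i => Set.mul_mem_mul (h2 _) (h2' _), ?_⟩
  · rw [Equiv.sum_comp f fun q : Fin p × Fin p' => c q.1 * c' q.2, Fintype.sum_prod_type]
    simp only [← Finset.mul_sum, h1', mul_one]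
    exact h1
  · rw [Equiv.sum_comp f fun q : Fin p × Fin p' =>
      ((c q.1 * c' q.2 : ℝ) : ℂ) • σ (l q.1 * l' q.2), Fintype.sum_prod_type, Finset.sum_mul]
    refine Finset.sum_congr rfl fun i _ => ?_
    rw [Finset.mul_sum]
    refine Finset.sum_congr rfl fun j _ => ?_
    rw [map_mul, Complex.ofReal_mul, smul_mul_smul_comm]

theorem mn_mem {l : E} (hl : l ∈ C) : σ l ∈ Mn σ C :=
  ⟨1, fun _ => 1, fun _ => l, fun _ => zero_le_one, by simp, fun _ => hl, by simp⟩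

theorem mn_half {l l' : E} (hl : l ∈ C) (hl' : l' ∈ C) :
    ((1 / 2 : ℝ) : ℂ) • σ l + ((1 / 2 : ℝ) : ℂ) • σ l' ∈ Mn σ C := by
  refine ⟨2, ![1 / 2, 1 / 2], ![l, l'], ?_, ?_, ?_, ?_⟩
  · intro i
    fin_cases i <;> norm_num
  · rw [Fin.sum_univ_two]
    norm_num
  · intro i
    fin_cases i
    · exact hl
    · exact hl'
  · rw [Fin.sum_univ_two]
    rfl

theorem mn_norm (hσ : ∀ g v, ‖σ g v‖ = ‖v‖) (h : m ∈ Mn σ C) (v : 𝓗) : ‖m v‖ ≤ ‖v‖ := by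
  obtain ⟨p, c, l, h0, h1, -, rfl⟩ := h
  rw [sum_apply]
  refine (norm_sum_le _ _).trans (le_of_eq ?_)
  calc ∑ i, ‖((c i : ℂ) • σ (l i)) v‖ = ∑ i, c i * ‖v‖ := by
        refine Finset.sum_congr rfl fun i _ => ?_
        rw [smul_apply, norm_smul, Complex.norm_real, Real.norm_of_nonneg (h0 i), hσ]
    _ = ‖v‖ := by rw [← Finset.sum_mul, h1, one_mul]

theorem mn_sub {W : Submodule ℂ 𝓗} (hW : ∀ g, ∀ v ∈ W, σ g v ∈ W) (h : m ∈ Mn σ C) {v : 𝓗}
    (hv : v ∈ W) : m v ∈ W := by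
  obtain ⟨p, c, l, h0, h1, -, rfl⟩ := h
  rw [sum_apply]
  exact Submodule.sum_mem _ fun i _ => W.smul_mem _ (hW _ _ hv)

end mn

/-! ### Fixed vectors of a set -/

section fx

variable {E : Type} [Group E] {𝓗 : Type} [NormedAddCommGroup 𝓗] [InnerProductSpace ℂ 𝓗]

/-- the vectors fixed by the elements of `S` -/
def fxS (σ : E →* (𝓗 →L[ℂ] 𝓗)) (S : Set E) : Submodule ℂ 𝓗 where
  carrier := {v | ∀ g ∈ S, σ g v = v}
  add_mem' {a b} ha hb g hg := by rw [map_add, ha g hg, hb g hg]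
  zero_mem' g _ := map_zero _
  smul_mem' c a ha g hg := by rw [map_smul, ha g hg]

theorem isClosed_fxS (σ : E →* (𝓗 →L[ℂ] 𝓗)) (S : Set E) : IsClosed (fxS σ S : Set 𝓗) := by
  have : (fxS σ S : Set 𝓗) = ⋂ g ∈ S, {ξ | σ g ξ = ξ} := by
    ext ξ
    simp only [Set.mem_iInter]
    exact Iff.rfl
  rw [this]
  exact isClosed_biInter fun g _ => isClosed_eq (σ g).continuous continuous_id

instance [CompleteSpace 𝓗] (σ : E →* (𝓗 →L[ℂ] 𝓗)) (S : Set E) : CompleteSpace (fxS σ S) :=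
  (isClosed_fxS σ S).completeSpace_coe

theorem fxS_le {σ : E →* (𝓗 →L[ℂ] 𝓗)} {S S' : Set E} (h : S' ⊆ S) : fxS σ S ≤ fxS σ S' :=
  fun _ hv g hg => hv g (h hg)

variable [TopologicalSpace E] [CompleteSpace 𝓗] {σ : E →* (𝓗 →L[ℂ] 𝓗)} {S S' : Set E} {z : E}

theorem orth_inv (hσ : URep σ) (hS : ∀ g, ∀ v ∈ fxS σ S, σ g v ∈ fxS σ S) (g : E) {v : 𝓗}
    (hv : v ∈ (fxS σ S)ᗮ) : σ g v ∈ (fxS σ S)ᗮ := by
  rw [Submodule.mem_orthogonal] at hv ⊢
  intro η hη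
  rw [hσ.inner_right]
  exact hv _ (hS _ _ hη)

/-- the projection onto an invariant subspace commutes with the representation -/
theorem proj_comm (hσ : URep σ) (hS : ∀ g, ∀ v ∈ fxS σ S, σ g v ∈ fxS σ S) (g : E) (v : 𝓗) :
    (fxS σ S).starProjection (σ g v) = σ g ((fxS σ S).starProjection v) := by
  refine Submodule.eq_starProjection_of_mem_of_inner_eq_zero
    (hS g _ (Submodule.starProjection_apply_mem _ _)) fun w hw => ?_
  rw [← map_sub, hσ.inner_left]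
  exact Submodule.starProjection_inner_eq_zero v _ (hS _ _ hw)

/-- averages over compact sets which commute with `z` contract the complement of the vectors fixed
by `S` -/
def GpS (σ : E →* (𝓗 →L[ℂ] 𝓗)) (z : E) (S : Set E) : Prop :=
  ∀ e : ℝ, 0 < e → ∃ C : Set E, IsCompact C ∧ (∀ l ∈ C, Commute l z) ∧
    ∀ v : 𝓗, (∀ η ∈ fxS σ S, ⟪η, v⟫_ℂ = 0) → ∃ m ∈ Mn σ C, ‖m v‖ ≤ e * ‖v‖

theorem gpS_mono (h : fxS σ S ≤ fxS σ S') (hg : GpS σ z S) : GpS σ z S' := fun e he => by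
  obtain ⟨C, h1, h2, h3⟩ := hg e he
  exact ⟨C, h1, h2, fun v hv => h3 v fun η hη => hv η (h hη)⟩

theorem gpS_empty : GpS σ z ∅ := fun e he => by
  refine ⟨{1}, isCompact_singleton, fun l hl => ?_, fun v hv => ⟨σ 1, mn_mem rfl, ?_⟩⟩
  · rw [Set.mem_singleton_iff.1 hl]
    exact Commute.one_left z
  · have h1 : v = 0 := inner_self_eq_zero.1 (hv v fun g hg => absurd hg (Set.notMem_empty g))
    rw [h1, map_zero, norm_zero, mul_zero]

/-- **The union.** -/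
theorem gpS_union [ContinuousMul E] (hσ : URep σ) (hS : ∀ g, ∀ v ∈ fxS σ S, σ g v ∈ fxS σ S)
    (h : GpS σ z S) (h' : GpS σ z S') : GpS σ z (S ∪ S') := by
  intro e he
  obtain ⟨C, h1, h2, h3⟩ := h (e / 2) (half_pos he)
  obtain ⟨C', h1', h2', h3'⟩ := h' (e / 2) (half_pos he)
  refine ⟨C * C', h1.mul h1', ?_, fun v hv => ?_⟩
  · rintro _ ⟨a, ha, b, hb, rfl⟩
    exact (h2 a ha).mul_left (h2' b hb)
  obtain ⟨P, hP⟩ : ∃ P : 𝓗 →L[ℂ] 𝓗, P = (fxS σ S).starProjection := ⟨_, rfl⟩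
  have hPm : ∀ w, P w ∈ fxS σ S := fun w => by
    rw [hP]; exact Submodule.starProjection_apply_mem _ _
  have hPc : ∀ g w, P (σ g w) = σ g (P w) := fun g w => by rw [hP]; exact proj_comm hσ hS g w
  have hPo : ∀ w, w - P w ∈ (fxS σ S)ᗮ := fun w => by
    rw [hP]; exact Submodule.sub_starProjection_mem_orthogonal w
  have hPn : ∀ w, ‖P w‖ ≤ ‖w‖ := fun w => by
    rw [hP]; exact Submodule.norm_starProjection_apply_le _ w
  have hPn' : ∀ w, ‖w - P w‖ ≤ ‖w‖ := by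
    intro w
    have h4 : ⟪P w, w - P w⟫_ℂ = 0 := (Submodule.mem_orthogonal _ _).1 (hPo w) _ (hPm w)
    have h5 : ‖w‖ * ‖w‖ = ‖P w‖ * ‖P w‖ + ‖w - P w‖ * ‖w - P w‖ := by
      have := norm_add_sq_eq_norm_sq_add_norm_sq_of_inner_eq_zero (𝕜 := ℂ) (P w) (w - P w) h4
      rwa [add_sub_cancel] at this
    nlinarith [norm_nonneg w, norm_nonneg (w - P w), mul_self_nonneg ‖P w‖]
  obtain ⟨m', hm', hb'⟩ := h3' (P v) fun η hη => by
    have h4 : ⟪η, P v⟫_ℂ = ⟪P η, v⟫_ℂ := by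
      rw [hP, Submodule.inner_starProjection_left_eq_right]
    rw [h4]
    refine hv _ fun g hg => ?_
    rcases hg with hg | hg
    · exact hPm η g hg
    · rw [← hPc, hη g hg]
  have h6 : m' (v - P v) ∈ (fxS σ S)ᗮ :=
    mn_sub (fun g w hw => orth_inv hσ hS g hw) hm' (hPo v)
  obtain ⟨m, hm, hb⟩ := h3 (m' (v - P v)) fun η hη => (Submodule.mem_orthogonal _ _).1 h6 η hη
  refine ⟨m * m', mn_mul hm hm', ?_⟩
  have e1 : (m * m') v = m (m' (P v)) + m (m' (v - P v)) := by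
    rw [ContinuousLinearMap.mul_apply, ← map_add, ← map_add, add_sub_cancel]
  rw [e1]
  have b1 : ‖m (m' (P v))‖ ≤ e / 2 * ‖v‖ := (mn_norm hσ.iso hm _).trans
    (hb'.trans (mul_le_mul_of_nonneg_left (hPn v) (half_pos he).le))
  have b2 : ‖m (m' (v - P v))‖ ≤ e / 2 * ‖v‖ := hb.trans (mul_le_mul_of_nonneg_left
    ((mn_norm hσ.iso hm' _).trans (hPn' v)) (half_pos he).le)
  calc ‖m (m' (P v)) + m (m' (v - P v))‖ ≤ e / 2 * ‖v‖ + e / 2 * ‖v‖ :=
        (norm_add_le _ _).trans (add_le_add b1 b2)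
    _ = e * ‖v‖ := by ring

/-- from a subgroup -/
theorem gpS_range {G : Type} [Group G] [TopologicalSpace G] (hσ : URep σ) {ι : G →* E}
    (hι : Continuous ι) {x : G} (hx : LeviGapK x) (hc : ∀ l, Commute l x → Commute (ι l) z) :
    GpS σ z (Set.range ι) := by
  intro e he
  obtain ⟨C, h1, h2, h3⟩ := hx 𝓗 (σ.comp ι) (hσ.comp ι hι.continuousAt) e he
  refine ⟨ι '' C, h1.image hι, ?_, fun v hv => ?_⟩
  · rintro _ ⟨l, hl, rfl⟩
    exact hc l (h2 l hl)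
  · obtain ⟨p, c, l, h4, h5, h6, h7⟩ := h3 v fun η hη => hv η (by
      rintro _ ⟨g, rfl⟩
      exact hη g)
    refine ⟨∑ i, (c i : ℂ) • σ (ι (l i)), ⟨p, c, fun i => ι (l i), h4, h5,
      fun i => ⟨l i, h6 i, rfl⟩, rfl⟩, ?_⟩
    rw [sum_apply]
    exact h7

end fx

/-! ### Groups -/

section grp

theorem leviGapK_of_gpS {E : Type} [Group E] [TopologicalSpace E] {z : E}
    (h : ∀ (𝓗 : Type) [NormedAddCommGroup 𝓗] [InnerProductSpace ℂ 𝓗] [CompleteSpace 𝓗]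
      (σ : E →* (𝓗 →L[ℂ] 𝓗)), URep σ → GpS σ z Set.univ) : LeviGapK z := by
  intro 𝓗 _ _ _ σ hσ e he
  obtain ⟨C, h1, h2, h3⟩ := h 𝓗 σ hσ e he
  refine ⟨C, h1, h2, fun v hv => ?_⟩
  obtain ⟨m, ⟨p, c, l, h4, h5, h6, rfl⟩, h7⟩ := h3 v fun η hη => hv η fun g => hη g (Set.mem_univ g)
  refine ⟨p, c, l, h4, h5, h6, ?_⟩
  rwa [sum_apply] at h7

/-- the fixed vectors of a normal subgroup -/
theorem fx_inv {E G : Type} [Group E] [Group G] {𝓗 : Type} [NormedAddCommGroup 𝓗]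
    [InnerProductSpace ℂ 𝓗] {σ : E →* (𝓗 →L[ℂ] 𝓗)} {ι : G →* E}
    (hn : ∀ g x, ∃ y, g⁻¹ * ι x * g = ι y) (g : E) (v : 𝓗) (hv : v ∈ fxS σ (Set.range ι)) :
    σ g v ∈ fxS σ (Set.range ι) := by
  rintro _ ⟨x, rfl⟩
  obtain ⟨y, hy⟩ := hn g x
  have h1 : ι x * g = g * ι y := by rw [← hy]; group
  calc σ (ι x) (σ g v) = σ (ι x * g) v := by rw [map_mul]; rfl
    _ = σ g (σ (ι y) v) := by rw [h1, map_mul]; rfl
    _ = σ g v := by rw [hv _ ⟨y, rfl⟩]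

/-- **Products of two groups.** -/
theorem leviGapK_prod {A B : Type} [Group A] [TopologicalSpace A] [ContinuousMul A] [Group B]
    [TopologicalSpace B] [ContinuousMul B] {a : A} {b : B} (ha : LeviGapK a) (hb : LeviGapK b) :
    LeviGapK ((a, b) : A × B) := by
  refine leviGapK_of_gpS fun 𝓗 _ _ _ σ hσ => ?_
  have h1 : GpS σ ((a, b) : A × B) (Set.range (MonoidHom.inl A B)) :=
    gpS_range hσ (continuous_id.prodMk continuous_const) ha fun l hl =>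
      Prod.ext hl (Commute.one_left b)
  have h2 : GpS σ ((a, b) : A × B) (Set.range (MonoidHom.inr A B)) :=
    gpS_range hσ (continuous_const.prodMk continuous_id) hb fun l hl =>
      Prod.ext (Commute.one_left a) hl
  refine gpS_mono ?_ (gpS_union hσ (fx_inv fun g x => ⟨g.1⁻¹ * x * g.1, ?_⟩) h1 h2)
  · intro v hv g _
    have e1 : g = MonoidHom.inl A B g.1 * MonoidHom.inr A B g.2 := by
      ext <;> simp
    rw [e1, URep.mul_apply, hv _ (Or.inr ⟨g.2, rfl⟩), hv _ (Or.inl ⟨g.1, rfl⟩)]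
  · ext <;> simp

/-- **Finite products.** -/
theorem leviGapK_pi {B : Type} [Fintype B] [DecidableEq B] {G : B → Type} [∀ b, Group (G b)]
    [∀ b, TopologicalSpace (G b)] [∀ b, ContinuousMul (G b)] {x : ∀ b, G b}
    (h : ∀ b, LeviGapK (x b)) : LeviGapK x := by
  refine leviGapK_of_gpS fun 𝓗 _ _ _ σ hσ => ?_
  have key : ∀ s : Finset B, GpS σ x (⋃ b ∈ s, Set.range (MonoidHom.mulSingle G b)) := by
    intro s
    induction s using Finset.induction_on with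
    | empty =>
      refine gpS_mono ?_ (gpS_empty (σ := σ) (z := x))
      exact fxS_le (by simp)
    | insert b s hb ih =>
      rw [Finset.set_biUnion_insert]
      refine gpS_union hσ (fx_inv fun g y => ⟨(g b)⁻¹ * y * g b, ?_⟩)
        (gpS_range hσ (continuous_mulSingle b) (h b) fun l hl => ?_) ih
      · funext c
        change (g c)⁻¹ * Pi.mulSingle b y c * g c = Pi.mulSingle b ((g b)⁻¹ * y * g b) c
        by_cases hc : c = b
        · subst hc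
          rw [Pi.mulSingle_eq_same, Pi.mulSingle_eq_same]
        · rw [Pi.mulSingle_eq_of_ne hc, Pi.mulSingle_eq_of_ne hc, mul_one, inv_mul_cancel]
      · funext c
        change Pi.mulSingle b l c * x c = x c * Pi.mulSingle b l c
        by_cases hc : c = b
        · subst hc
          rw [Pi.mulSingle_eq_same]
          exact hl
        · rw [Pi.mulSingle_eq_of_ne hc, one_mul, mul_one]
  refine gpS_mono ?_ (key Finset.univ)
  intro v hv g _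
  let H : Subgroup (∀ b, G b) :=
    { carrier := {g | σ g v = v}
      mul_mem' := fun {a b} ha hb => by
        change σ (a * b) v = v
        rw [URep.mul_apply, hb, ha]
      one_mem' := URep.one_apply v
      inv_mem' := fun {a} ha => by
        change σ a⁻¹ v = v
        have h1 : σ a⁻¹ (σ a v) = v := by
          rw [← URep.mul_apply, inv_mul_cancel, URep.one_apply]
        rwa [show σ a v = v from ha] at h1 }
  exact Subgroup.pi_mem_of_mulSingle_mem (H := H) g fun b =>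
    hv _ (Set.mem_biUnion (Finset.mem_univ b) ⟨g b, rfl⟩)

end grp

/-! ### Property (T) -/

section kaz

variable {G : Type} [Group G] [TopologicalSpace G] {𝓗 : Type} [NormedAddCommGroup 𝓗]
  [InnerProductSpace ℂ 𝓗] [CompleteSpace 𝓗] {σ : G →* (𝓗 →L[ℂ] 𝓗)}

theorem orth_fix (hσ : URep σ) (g : G) {v : 𝓗} (hv : v ∈ (fixedSub σ)ᗮ) :
    σ g v ∈ (fixedSub σ)ᗮ := by
  rw [Submodule.mem_orthogonal] at hv ⊢
  intro η hη
  rw [hσ.inner_right, hη]
  exact hv _ hη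

/-- the representation on the complement of the fixed vectors -/
noncomputable def sub (hσ : URep σ) : G →* ((fixedSub σ)ᗮ →L[ℂ] (fixedSub σ)ᗮ) where
  toFun g := ((σ g).comp (fixedSub σ)ᗮ.subtypeL).codRestrict _ fun w => orth_fix hσ g w.2
  map_one' := by
    ext w
    change σ 1 (w : 𝓗) = w
    rw [map_one]
    rfl
  map_mul' g h := by
    ext w
    change σ (g * h) (w : 𝓗) = σ g (σ h w)
    rw [map_mul]
    rfl

/-- **(T), relative form.** -/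
theorem kaz_rel [IsTopologicalGroup G] {Q : Set G} {κ : ℝ} (h : ∀ (ℋ : Type)
    [NormedAddCommGroup ℋ] [InnerProductSpace ℂ ℋ] [CompleteSpace ℋ] (σ : G →* (ℋ →L[ℂ] ℋ)),
    (∀ g v, ‖σ g v‖ = ‖v‖) → (∀ v, Continuous fun g => σ g v) →
    (∀ v, (∀ g, σ g v = v) → v = 0) → ∀ v, ∃ g ∈ Q, κ * ‖v‖ ≤ ‖σ g v - v‖)
    (hσ : URep σ) {v : 𝓗} (hv : ∀ η ∈ fixedSub σ, ⟪η, v⟫_ℂ = 0) :
    ∃ g ∈ Q, κ * ‖v‖ ≤ ‖σ g v - v‖ := by
  have hv' : v ∈ (fixedSub σ)ᗮ := (Submodule.mem_orthogonal _ _).2 hv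
  have c1 : ∀ w : (fixedSub σ)ᗮ, Continuous fun g => sub hσ g w := fun w => by
    refine Continuous.subtype_mk (?_ : Continuous fun g => σ g (w : 𝓗)) _
    refine continuous_iff_continuousAt.2 fun g₀ => ?_
    exact hσ.tendsto (g := fun g => g) (x := fun _ => (w : 𝓗)) tendsto_id tendsto_const_nhds
  have c2 : ∀ w : (fixedSub σ)ᗮ, (∀ g, sub hσ g w = w) → w = 0 := fun w hw => by
    have h2 : (w : 𝓗) ∈ fixedSub σ := fun g => congrArg Subtype.val (hw g)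
    have h3 := (Submodule.mem_orthogonal _ _).1 w.2 _ h2
    exact Subtype.ext (inner_self_eq_zero.1 h3)
  obtain ⟨g, hg, h1⟩ := h (fixedSub σ)ᗮ (sub hσ) (fun g w => hσ.iso g w) c1 c2 ⟨v, hv'⟩
  exact ⟨g, hg, h1⟩

/-- the midpoint -/
theorem norm_mid {v w : 𝓗} (hw : ‖w‖ = ‖v‖) {δ : ℝ} (h0 : 0 ≤ δ) (h1 : δ ≤ 1)
    (h : δ * ‖v‖ ≤ ‖w - v‖) :
    ‖((1 / 2 : ℝ) : ℂ) • v + ((1 / 2 : ℝ) : ℂ) • w‖ ≤ Real.sqrt (1 - δ ^ 2 / 4) * ‖v‖ := by
  have e1 : ((1 / 2 : ℝ) : ℂ) • v + ((1 / 2 : ℝ) : ℂ) • w = ((1 / 2 : ℝ) : ℂ) • (v + w) := by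
    rw [smul_add]
  have h2 := parallelogram_law_with_norm ℂ v w
  rw [hw, norm_sub_rev v w] at h2
  have h3 : (0 : ℝ) ≤ 1 - δ ^ 2 / 4 := by nlinarith
  rw [e1, norm_smul, Complex.norm_real, Real.norm_of_nonneg (by norm_num)]
  refine le_of_pow_le_pow_left₀ two_ne_zero (by positivity) ?_
  rw [mul_pow, mul_pow, Real.sq_sqrt h3]
  have h4 : (δ * ‖v‖) * (δ * ‖v‖) ≤ ‖w - v‖ * ‖w - v‖ :=
    mul_self_le_mul_self (mul_nonneg h0 (norm_nonneg _)) h
  nlinarith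

/-- **Property (T) is `LeviGapK 1`.** -/
theorem leviGapK_of_kazT [IsTopologicalGroup G] (h : KazT G) : LeviGapK (1 : G) := by
  obtain ⟨Q, κ, hQ, hκ, hT⟩ := h
  intro 𝓗 _ _ _ σ hσ e he
  obtain ⟨δ, hδ⟩ : ∃ δ, δ = min κ 1 := ⟨_, rfl⟩
  have hδ0 : 0 < δ := by rw [hδ]; exact lt_min hκ one_pos
  have hδ1 : δ ≤ 1 := by rw [hδ]; exact min_le_right _ _
  have hδκ : δ ≤ κ := by rw [hδ]; exact min_le_left _ _
  obtain ⟨r, hr⟩ : ∃ r, r = Real.sqrt (1 - δ ^ 2 / 4) := ⟨_, rfl⟩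
  have hr0 : 0 ≤ r := by rw [hr]; exact Real.sqrt_nonneg _
  have hr1 : r < 1 := by
    rw [hr, Real.sqrt_lt' one_pos]
    nlinarith
  have key : ∀ n : ℕ, ∃ C : Set G, IsCompact C ∧ ∀ v : 𝓗, (∀ η ∈ fixedSub σ, ⟪η, v⟫_ℂ = 0) →
      ∃ m ∈ Mn σ C, ‖m v‖ ≤ r ^ n * ‖v‖ := by
    intro n
    induction n with
    | zero =>
      refine ⟨{1}, isCompact_singleton, fun v _ => ⟨σ 1, mn_mem rfl, ?_⟩⟩
      rw [hσ.iso, pow_zero, one_mul]
    | succ n ih =>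
      obtain ⟨C, hC, h1⟩ := ih
      refine ⟨(Q ∪ {1}) * C, (hQ.union isCompact_singleton).mul hC, fun v hv => ?_⟩
      obtain ⟨m, hm, h2⟩ := h1 v hv
      have h3 : ∀ η ∈ fixedSub σ, ⟪η, m v⟫_ℂ = 0 := by
        have h4 : m v ∈ (fixedSub σ)ᗮ :=
          mn_sub (fun g w hw => orth_fix hσ g hw) hm ((Submodule.mem_orthogonal _ _).2 hv)
        exact (Submodule.mem_orthogonal _ _).1 h4
      obtain ⟨g, hg, h4⟩ := kaz_rel hT hσ h3
      refine ⟨(((1 / 2 : ℝ) : ℂ) • σ 1 + ((1 / 2 : ℝ) : ℂ) • σ g) * m,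
        mn_mul (mn_half (Or.inr rfl) (Or.inl hg)) hm, ?_⟩
      have h5 : ((((1 / 2 : ℝ) : ℂ) • σ 1 + ((1 / 2 : ℝ) : ℂ) • σ g) * m) v =
          ((1 / 2 : ℝ) : ℂ) • m v + ((1 / 2 : ℝ) : ℂ) • σ g (m v) := by
        rw [ContinuousLinearMap.mul_apply, add_apply, smul_apply, smul_apply, URep.one_apply]
      rw [h5]
      have h6 := norm_mid (hσ.iso g (m v)) hδ0.le hδ1
        ((mul_le_mul_of_nonneg_right hδκ (norm_nonneg _)).trans h4)
      rw [← hr] at h6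
      calc _ ≤ r * ‖m v‖ := h6
        _ ≤ r * (r ^ n * ‖v‖) := mul_le_mul_of_nonneg_left h2 hr0
        _ = r ^ (n + 1) * ‖v‖ := by ring
  obtain ⟨n, hn⟩ := exists_pow_lt_of_lt_one he hr1
  obtain ⟨C, hC, h1⟩ := key n
  refine ⟨C, hC, fun l _ => Commute.one_right l, fun v hv => ?_⟩
  obtain ⟨m, ⟨p, c, l, h4, h5, h6, rfl⟩, h7⟩ := h1 v hv
  refine ⟨p, c, l, h4, h5, h6, ?_⟩
  rw [sum_apply] at h7
  exact h7.trans (mul_le_mul_of_nonneg_right hn.le (norm_nonneg _))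

end kaz

end Vale.Agent.P092.H962.MX
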