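import Vale.Agent.P092.H962.MX.Gap
import Vale.Agent.P092.H725.SN.GK3
import Vale.Agent.P092.H368.SN.GeoC
import Vale.Agent.P092.H387.Ad2
import Vale.Agent.P092.MX.Defs

/-!
P092 (helper962), project MIX: the source group `EM k N G = ∏ PGL_(N j + 1)(k j) × ∏ G b`, the gap
`LeviGapK`, the centraliser condition `Cz` and commutation of the factors.
-/

set_option linter.all false

open scoped InnerProductSpace LinearAlgebra.Projectivization
open Filter Topology ContinuousLinearMap

namespace Vale.Agent.P092.H962.MX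

open Vale.Agent.P092.H933
open Vale.Agent.P092.RC (GG PG YY)
open Vale.Agent.P092.SN (bw)
open Vale.Agent.P092.H725.SN (LeviGapK)
open Vale.Agent.P092.H368.SN (Cz cz_pi cz_pgl ad0_of)
open Vale.Agent.P092.MX (EM iM aM aM')

/-- **Products with another group** -/
theorem cz_prod {k : Type} [NontriviallyNormedField k] {N : ℕ} {A B : Type} [Group A]
    [TopologicalSpace A] [Group B] [TopologicalSpace B]
    {ι : GG k N →* A} {a a' : A →* PG k (N + 1)} {w : kˣ} (h : Cz w ι a a') :
    Cz w ((MonoidHom.inl A B).comp ι) (a.comp (MonoidHom.fst A B))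
      (a'.comp (MonoidHom.fst A B)) := fun e h1 h2 =>
  Prod.ext (h e.1 h1 h2) (Commute.one_left e.2)

section em

variable {J B : Type} [Fintype J] [DecidableEq J] (k : J → Type)
  [∀ j, NontriviallyNormedField (k j)] [∀ j, ProperSpace (k j)] (N : J → ℕ) (G : B → Type)
  [∀ b, Group (G b)] [∀ b, TopologicalSpace (G b)]

/-- **The gap** in the source group of MIX. -/
theorem leviGapK_M [Fintype B] [DecidableEq B] [∀ b, IsTopologicalGroup (G b)]
    (hk : ∀ j, LocK (k j)) (hN : ∀ j, 2 ≤ N j) (hT : ∀ b, KazT (G b)) (j : J) (w : (k j)ˣ) :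
    LeviGapK (iM k N G j (bw w)) :=
  leviGapK_prod (H725.SN.leviGapK_PG k N hk hN j w)
    (leviGapK_pi (x := (1 : ∀ b, G b)) fun b => leviGapK_of_kazT (hT b))

theorem cz_M (hk : ∀ j, LocK (k j)) (hN : ∀ j, 2 ≤ N j) (j : J) (w : (k j)ˣ) :
    Cz w (iM k N G j) (aM k N G j) (aM' k N G j) :=
  cz_prod (cz_pi j (cz_pgl (ad0_of (H387.Ad.adm_pgl (hk j) (hN j))) w))

theorem comm_M {i j : J} (hij : i ≠ j) (g : GG (k i) (N i)) (h : GG (k j) (N j)) :
    Commute (iM k N G i g) (iM k N G j h) :=
  Prod.ext (Pi.mulSingle_commute hij _ _) (Commute.one_left 1)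

end em

end Vale.Agent.P092.H962.MX
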